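import Mathlib

set_option autoImplicit false

namespace Crest.Agent.R232

open Finset

theorem add_rpow_gt {q x y : ℝ} (hq : 1 < q) (hx : 0 < x) (hy : 0 < y) :
    x ^ q + y ^ q < (x + y) ^ q := by
  have h1 : (x + y) ^ q = (x + y) ^ (q - 1) * (x + y) := by
    rw [Real.rpow_sub_one (by positivity)]; field_simp
  have h2 : x ^ q = x ^ (q - 1) * x := by rw [Real.rpow_sub_one hx.ne']; field_simp
  have h3 : y ^ q = y ^ (q - 1) * y := by rw [Real.rpow_sub_one hy.ne']; field_simp
  have h4 : x ^ (q - 1) < (x + y) ^ (q - 1) := Real.rpow_lt_rpow hx.le (by linarith) (by linarith)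
  have h5 : y ^ (q - 1) < (x + y) ^ (q - 1) := Real.rpow_lt_rpow hy.le (by linarith) (by linarith)
  rw [h1, h2, h3]
  nlinarith [mul_lt_mul_of_pos_right h4 hx, mul_lt_mul_of_pos_right h5 hy]

theorem add_rpow_lt {q x y : ℝ} (hq : q < 1) (hx : 0 < x) (hy : 0 < y) :
    (x + y) ^ q < x ^ q + y ^ q := by
  have h1 : (x + y) ^ q = (x + y) ^ (q - 1) * (x + y) := by
    rw [Real.rpow_sub_one (by positivity)]; field_simp
  have h2 : x ^ q = x ^ (q - 1) * x := by rw [Real.rpow_sub_one hx.ne']; field_simp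
  have h3 : y ^ q = y ^ (q - 1) * y := by rw [Real.rpow_sub_one hy.ne']; field_simp
  have h4 : (x + y) ^ (q - 1) < x ^ (q - 1) :=
    Real.rpow_lt_rpow_of_neg hx (by linarith) (by linarith)
  have h5 : (x + y) ^ (q - 1) < y ^ (q - 1) :=
    Real.rpow_lt_rpow_of_neg hy (by linarith) (by linarith)
  rw [h1, h2, h3]
  nlinarith [mul_lt_mul_of_pos_right h4 hx, mul_lt_mul_of_pos_right h5 hy]

theorem abs_rpow_eq_sq_rpow (p t : ℝ) : |t| ^ p = (t ^ 2) ^ (p / 2) := by
  rw [← sq_abs, ← Real.rpow_natCast, ← Real.rpow_mul (abs_nonneg t)]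
  congr 1; push_cast; ring

/-- The Clarkson defect. -/
noncomputable def clark (p a b : ℝ) : ℝ := |a - b| ^ p + |a + b| ^ p - 2 * |a| ^ p - 2 * |b| ^ p

theorem clark_eq_zero {p : ℝ} (hp : 0 < p) {a b : ℝ} (h : a * b = 0) : clark p a b = 0 := by
  rcases mul_eq_zero.1 h with rfl | rfl
  · simp [clark, Real.zero_rpow hp.ne']; ring
  · simp [clark, Real.zero_rpow hp.ne']; ring

theorem clark_pos {p : ℝ} (hp : 2 < p) {a b : ℝ} (h : a * b ≠ 0) : 0 < clark p a b := by
  have ha : 0 < a ^ 2 := by have := left_ne_zero_of_mul h; positivity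
  have hb : 0 < b ^ 2 := by have := right_ne_zero_of_mul h; positivity
  have h1 := add_rpow_gt (q := p / 2) (by linarith) ha hb
  have h2 := (convexOn_rpow (p := p / 2) (by linarith)).2 (Set.mem_Ici.2 (sq_nonneg (a - b)))
    (Set.mem_Ici.2 (sq_nonneg (a + b))) (show (0 : ℝ) ≤ 1 / 2 by norm_num)
    (show (0 : ℝ) ≤ 1 / 2 by norm_num) (by norm_num)
  simp only [smul_eq_mul] at h2
  rw [show 1 / 2 * (a - b) ^ 2 + 1 / 2 * (a + b) ^ 2 = a ^ 2 + b ^ 2 by ring] at h2
  simp only [clark, abs_rpow_eq_sq_rpow]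
  linarith

theorem clark_neg {p : ℝ} (hp0 : 0 < p) (hp : p < 2) {a b : ℝ} (h : a * b ≠ 0) :
    clark p a b < 0 := by
  have ha : 0 < a ^ 2 := by have := left_ne_zero_of_mul h; positivity
  have hb : 0 < b ^ 2 := by have := right_ne_zero_of_mul h; positivity
  have h1 := add_rpow_lt (q := p / 2) (by linarith) ha hb
  have h2 := (Real.concaveOn_rpow (p := p / 2) (by linarith) (by linarith)).2
    (Set.mem_Ici.2 (sq_nonneg (a - b)))
    (Set.mem_Ici.2 (sq_nonneg (a + b))) (show (0 : ℝ) ≤ 1 / 2 by norm_num)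
    (show (0 : ℝ) ≤ 1 / 2 by norm_num) (by norm_num)
  simp only [smul_eq_mul] at h2
  rw [show 1 / 2 * (a - b) ^ 2 + 1 / 2 * (a + b) ^ 2 = a ^ 2 + b ^ 2 by ring] at h2
  simp only [clark, abs_rpow_eq_sq_rpow]
  linarith

theorem sum_clark_eq_zero_iff {ι : Type*} [Fintype ι] {p : ℝ} (hp0 : 0 < p) (hp : p ≠ 2)
    (a b : ι → ℝ) : ∑ k, clark p (a k) (b k) = 0 ↔ ∀ k, a k * b k = 0 := by
  refine ⟨fun h k => ?_, fun h => Finset.sum_eq_zero fun k _ => clark_eq_zero hp0 (h k)⟩
  by_contra hk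
  rcases lt_or_gt_of_ne hp with h2 | h2
  · have h1 : ∀ k, clark p (a k) (b k) ≤ 0 := fun k => by
      by_cases h3 : a k * b k = 0
      · exact (clark_eq_zero hp0 h3).le
      · exact (clark_neg hp0 h2 h3).le
    exact (clark_neg hp0 h2 hk).ne
      ((Finset.sum_eq_zero_iff_of_nonpos fun k _ => h1 k).1 h k (mem_univ k))
  · have h1 : ∀ k, 0 ≤ clark p (a k) (b k) := fun k => by
      by_cases h3 : a k * b k = 0
      · exact (clark_eq_zero hp0 h3).ge
      · exact (clark_pos h2 h3).le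
    exact (clark_pos h2 hk).ne'
      ((Finset.sum_eq_zero_iff_of_nonneg fun k _ => h1 k).1 h k (mem_univ k))

/-- The midpoint defect. -/
noncomputable def midp (p a b : ℝ) : ℝ := 2 ^ p * ((|a| ^ p + |b| ^ p) / 2) - |a - b| ^ p

theorem midp_pos {p : ℝ} (hp : 1 < p) {a b : ℝ} (h : b ≠ -a) : 0 < midp p a b := by
  have hp0 : 0 < p := by linarith
  have e1 : 2 ^ p * ((|a| + |b|) / 2) ^ p = (|a| + |b|) ^ p := by
    rw [← Real.mul_rpow (by norm_num) (by positivity)]; congr 1; ring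
  have h2p : (0 : ℝ) < 2 ^ p := by positivity
  by_cases hab : |a| = |b|
  · have hba : b = a := by
      rcases abs_eq_abs.1 hab with h1 | h1
      · exact h1.symm
      · exact absurd (by linarith) h
    subst hba
    have hb : b ≠ 0 := fun h0 => h (by simp [h0])
    have : 0 < |b| ^ p := Real.rpow_pos_of_pos (abs_pos.2 hb) p
    simp only [midp, sub_self, abs_zero, Real.zero_rpow hp0.ne']
    nlinarith [mul_pos h2p this]
  · have h1 := (strictConvexOn_rpow hp).2 (Set.mem_Ici.2 (abs_nonneg a))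
      (Set.mem_Ici.2 (abs_nonneg b)) hab (show (0 : ℝ) < 1 / 2 by norm_num)
      (show (0 : ℝ) < 1 / 2 by norm_num) (by norm_num)
    simp only [smul_eq_mul] at h1
    rw [show 1 / 2 * |a| + 1 / 2 * |b| = (|a| + |b|) / 2 by ring] at h1
    have h3 : |a - b| ^ p ≤ (|a| + |b|) ^ p := Real.rpow_le_rpow (abs_nonneg _) (abs_sub a b) hp0.le
    have h4 := mul_lt_mul_of_pos_left h1 h2p
    simp only [midp]
    linarith

theorem midp_neg_self (p a : ℝ) : midp p a (-a) = 0 := by
  simp only [midp, abs_neg, sub_neg_eq_add]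
  rw [← two_mul a, abs_mul, abs_two, Real.mul_rpow (by norm_num) (abs_nonneg a)]
  ring

theorem eq_neg_of_sum_midp {ι : Type*} [Fintype ι] {p : ℝ} (hp : 1 < p) (a b : ι → ℝ)
    (h : ∑ k, midp p (a k) (b k) = 0) (k : ι) : b k = -a k := by
  by_contra hk
  have h1 : ∀ k, 0 ≤ midp p (a k) (b k) := fun k => by
    by_cases h3 : b k = -a k
    · rw [h3, midp_neg_self]
    · exact (midp_pos hp h3).le
  exact (midp_pos hp hk).ne'
    ((Finset.sum_eq_zero_iff_of_nonneg fun k _ => h1 k).1 h k (mem_univ k))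

/-- Rigidity of the row and column configuration. -/
theorem rigid_grid {p c : ℝ} (hp : 1 < p) (hp2 : p ≠ 2) (hc : 0 < c) {P K : Type*} [Fintype K]
    {m : ℕ} (g : P → Fin m × Fin m → ℝ) (Y : P → K → ℝ)
    (hiso : ∀ a b, ∑ k, |Y a k - Y b k| ^ p = c * ∑ t, |g a t - g b t| ^ p)
    (z : P) (hz : ∀ t, g z t = 0) (r r' s s' : Fin m → P)
    (hr : ∀ i t, g (r i) t = if t.1 = i then 1 else 0) (hr' : ∀ i t, g (r' i) t = -g (r i) t)
    (hs : ∀ j t, g (s j) t = if t.2 = j then 1 else 0) (hs' : ∀ j t, g (s' j) t = -g (s j) t) :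
    m ^ 2 ≤ Fintype.card K := by
  classical
  have hp0 : 0 < p := by linarith
  set Z : P → K → ℝ := fun a k => Y a k - Y z k with hZ
  have hZ2 : ∀ a b, ∑ k, |Z a k - Z b k| ^ p = c * ∑ t, |g a t - g b t| ^ p := by
    intro a b
    rw [← hiso]
    exact Finset.sum_congr rfl fun k _ => by simp only [hZ]; congr 2; ring
  have hZ1 : ∀ a, ∑ k, |Z a k| ^ p = c * ∑ t, |g a t| ^ p := by
    intro a
    have := hiso a z
    simpa only [hz, sub_zero] using this
  have hneg : ∀ a a', (∀ t, g a' t = -g a t) → ∀ k, Z a' k = -Z a k := by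
    intro a a' h
    refine eq_neg_of_sum_midp hp (Z a) (Z a') ?_
    have h1 : ∑ t, midp p (g a t) (g a' t) = 0 :=
      Finset.sum_eq_zero fun t _ => by rw [h, midp_neg_self]
    simp only [midp] at h1 ⊢
    rw [Finset.sum_sub_distrib, ← Finset.mul_sum, ← Finset.sum_div, Finset.sum_add_distrib] at h1 ⊢
    rw [hZ1, hZ1, hZ2]
    linear_combination c * h1
  have hdis : ∀ a b b', (∀ t, g b' t = -g b t) →
      ((∀ k, Z a k * Z b k = 0) ↔ ∀ t, g a t * g b t = 0) := by
    intro a b b' h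
    rw [← sum_clark_eq_zero_iff hp0 hp2, ← sum_clark_eq_zero_iff hp0 hp2]
    have h1 : ∑ k, clark p (Z a k) (Z b k) = c * ∑ t, clark p (g a t) (g b t) := by
      have h2 := hZ2 a b'
      simp only [hneg b b' h, h, sub_neg_eq_add] at h2
      simp only [clark]
      rw [Finset.sum_sub_distrib, Finset.sum_sub_distrib, Finset.sum_add_distrib,
        Finset.sum_sub_distrib, Finset.sum_sub_distrib, Finset.sum_add_distrib,
        ← Finset.mul_sum, ← Finset.mul_sum, ← Finset.mul_sum, ← Finset.mul_sum, hZ1, hZ1, hZ2, h2]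
      ring
    rw [h1, mul_eq_zero, or_iff_right hc.ne']
  have hex : ∀ ij : Fin m × Fin m, ∃ k, Z (r ij.1) k * Z (s ij.2) k ≠ 0 := by
    intro ij
    by_contra hcon
    push Not at hcon
    have := (hdis (r ij.1) (s ij.2) (s' ij.2) (hs' ij.2)).1 hcon ij
    simp [hr, hs] at this
  choose κ hκ using hex
  have hinj : Function.Injective κ := by
    intro a b hab
    have h1 := hκ a
    have h2 := hκ b
    rw [← hab] at h2
    refine Prod.ext ?_ ?_
    · by_contra hne
      have := (hdis (r a.1) (r b.1) (r' b.1) (hr' b.1)).2 (fun t => by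
        rw [hr, hr]
        split_ifs with h3 h4
        · exact absurd (h3.symm.trans h4) hne
        all_goals simp) (κ a)
      exact mul_ne_zero (left_ne_zero_of_mul h1) (left_ne_zero_of_mul h2) this
    · by_contra hne
      have := (hdis (s a.2) (s b.2) (s' b.2) (hs' b.2)).2 (fun t => by
        rw [hs, hs]
        split_ifs with h3 h4
        · exact absurd (h3.symm.trans h4) hne
        all_goals simp) (κ a)
      exact mul_ne_zero (right_ne_zero_of_mul h1) (right_ne_zero_of_mul h2) this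
  have := Fintype.card_le_of_injective κ hinj
  simpa [sq] using this

end Crest.Agent.R232
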