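import Mathlib

set_option autoImplicit false

namespace Crest.Agent.R232

open Finset

/-- Finite minimax for a convex set of vectors: if every probability vector `σ` has a point of `U`
with `σ`-average at most `c`, then some point of `U` has all coordinates `< c'`. -/
theorem minimax_set {I : Type*} [Fintype I] [Nonempty I] (U : Set (I → ℝ)) (hU : Convex ℝ U)
    (c c' : ℝ) (hc : c < c')
    (h : ∀ σ : I → ℝ, (∀ i, 0 ≤ σ i) → ∑ i, σ i = 1 → ∃ y ∈ U, ∑ i, σ i * y i ≤ c) :
    ∃ y ∈ U, ∀ i, y i < c' := by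
  classical
  by_contra hcon
  push Not at hcon
  set O : Set (I → ℝ) := {y | ∀ i, y i < c'} with hO
  have hOo : IsOpen O := by
    have : O = ⋂ i, {y : I → ℝ | y i < c'} := by ext y; simp [hO]
    rw [this]
    exact isOpen_iInter_of_finite fun i => isOpen_lt (continuous_apply i) continuous_const
  have hOc : Convex ℝ O := by
    intro a ha b hb s t hs ht hst i
    have h1 := ha i
    have h2 := hb i
    simp only [Pi.add_apply, Pi.smul_apply, smul_eq_mul]
    rcases hs.eq_or_lt with rfl | hs'
    · have : t = 1 := by linarith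
      subst this; linarith
    · have : c' = s * c' + t * c' := by rw [← add_mul, hst, one_mul]
      nlinarith [mul_lt_mul_of_pos_left h1 hs', mul_le_mul_of_nonneg_left h2.le ht]
  have hdisj : Disjoint O U := by
    rw [Set.disjoint_left]
    intro y hy hyU
    obtain ⟨i, hi⟩ := hcon y hyU
    exact absurd (hy i) (not_lt.mpr hi)
  obtain ⟨f, u, hfa, hfb⟩ := geometric_hahn_banach_open hOc hOo hU hdisj
  set σ : I → ℝ := fun i => f (Pi.single i 1) with hσ
  have hf : ∀ y : I → ℝ, f y = ∑ i, σ i * y i := by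
    intro y
    conv_lhs => rw [← Finset.univ_sum_single y]
    rw [map_sum]
    refine Finset.sum_congr rfl fun i _ => ?_
    have : (Pi.single i (y i) : I → ℝ) = y i • Pi.single i (1 : ℝ) := by
      ext j; by_cases hj : j = i
      · subst hj; simp
      · simp [hj]
    rw [this, map_smul, smul_eq_mul, mul_comm]
  set c'' : ℝ := (c + c') / 2 with hc''
  have hc1 : c < c'' := by rw [hc'']; linarith
  have hc2 : c'' < c' := by rw [hc'']; linarith
  have hconst : f (fun _ => c'') < u := hfa _ (fun _ => hc2)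
  have hσ0 : ∀ i, 0 ≤ σ i := by
    intro i
    by_contra hneg
    push Not at hneg
    set t : ℝ := (u - f (fun _ => c'')) / (-σ i) with ht
    have htpos : 0 < t := div_pos (by linarith) (by linarith)
    have hmem : ((fun _ => c'') - t • (Pi.single i (1 : ℝ) : I → ℝ)) ∈ O := by
      intro j
      simp only [Pi.sub_apply, Pi.smul_apply, smul_eq_mul]
      have : 0 ≤ (Pi.single i (1 : ℝ) : I → ℝ) j := by
        by_cases hj : j = i
        · subst hj; simp
        · simp [hj]
      nlinarith [mul_nonneg htpos.le this]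
    have := hfa _ hmem
    rw [map_sub, map_smul, smul_eq_mul] at this
    have h3 : t * σ i = -(u - f (fun _ => c'')) := by
      rw [ht]; field_simp [hneg.ne]
    change f (fun _ => c'') - t * σ i < u at this
    linarith
  set s : ℝ := ∑ i, σ i with hs
  have hs0 : 0 ≤ s := Finset.sum_nonneg fun i _ => hσ0 i
  have hconst' : f (fun _ => c'') = s * c'' := by rw [hf, hs, Finset.sum_mul]
  rcases hs0.eq_or_lt with hs1 | hs1
  · have hall : ∀ i, σ i = 0 := by
      intro i
      have := (Finset.sum_eq_zero_iff_of_nonneg (fun i _ => hσ0 i)).1 hs1.symm i (mem_univ i)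
      exact this
    obtain ⟨y, hy, -⟩ := h (fun _ => (Fintype.card I : ℝ)⁻¹) (fun _ => by positivity) (by
      rw [Finset.sum_const, card_univ, nsmul_eq_mul]
      exact mul_inv_cancel₀ (by exact_mod_cast Fintype.card_ne_zero))
    have h1 := hfb y hy
    rw [hf] at h1
    rw [hconst', ← hs1] at hconst
    simp [hall] at h1
    linarith
  · obtain ⟨y, hy, hyc⟩ := h (fun i => σ i / s) (fun i => div_nonneg (hσ0 i) hs0) (by
      rw [← Finset.sum_div, ← hs, div_self hs1.ne'])
    have h1 := hfb y hy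
    rw [hf] at h1
    have h2 : ∑ i, σ i * y i = s * ∑ i, σ i / s * y i := by
      rw [Finset.mul_sum]
      refine Finset.sum_congr rfl fun i _ => ?_
      field_simp
    rw [hconst'] at hconst
    have h3 : s * ∑ i, σ i / s * y i ≤ s * c := mul_le_mul_of_nonneg_left hyc hs0
    nlinarith

/-- Finite minimax for convex functions on a convex set. -/
theorem minimax_fun {W : Type*} [AddCommGroup W] [Module ℝ W] {I : Type*} [Fintype I] [Nonempty I]
    (C : Set W) (F : I → W → ℝ) (hF : ∀ i, ConvexOn ℝ C (F i))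
    (c c' : ℝ) (hc : c < c')
    (h : ∀ σ : I → ℝ, (∀ i, 0 ≤ σ i) → ∑ i, σ i = 1 → ∃ x ∈ C, ∑ i, σ i * F i x ≤ c) :
    ∃ x ∈ C, ∀ i, F i x < c' := by
  set U : Set (I → ℝ) := {y | ∃ x ∈ C, ∀ i, F i x ≤ y i} with hU
  have hUc : Convex ℝ U := by
    rintro a ⟨x, hx, hxa⟩ b ⟨z, hz, hzb⟩ s t hs ht hst
    refine ⟨s • x + t • z, (hF (Classical.arbitrary I)).1 hx hz hs ht hst, fun i => ?_⟩
    have := (hF i).2 hx hz hs ht hst
    simp only [Pi.add_apply, Pi.smul_apply, smul_eq_mul] at this ⊢
    nlinarith [mul_le_mul_of_nonneg_left (hxa i) hs, mul_le_mul_of_nonneg_left (hzb i) ht]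
  obtain ⟨y, ⟨x, hx, hxy⟩, hy⟩ := minimax_set U hUc c c' hc (fun σ h0 h1 => by
    obtain ⟨x, hx, hxc⟩ := h σ h0 h1
    exact ⟨fun i => F i x, ⟨x, hx, fun _ => le_rfl⟩, hxc⟩)
  exact ⟨x, hx, fun i => (hxy i).trans_lt (hy i)⟩

end Crest.Agent.R232
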