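import Crest.Agent.R232.Local
import Crest.Agent.R232.Minimax

set_option autoImplicit false

namespace Crest.Agent.R232

open Finset

variable {X : Type*} [Fintype X] [DecidableEq X]

/-- The linear map from edge vectors to gradients given by the potentials `B`. -/
noncomputable def qop (d : X × X → ℝ) (B : X × X → X → ℝ) (v : X × X → ℝ) (e : X × X) : ℝ :=
  ∑ f, v f * grad d (B f) e

omit [DecidableEq X] in
theorem qop_eq_grad (d : X × X → ℝ) (B : X × X → X → ℝ) (v : X × X → ℝ) (e : X × X) :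
    qop d B v e = grad d (fun x => ∑ f, v f * B f x) e := by
  simp only [qop, grad]
  rw [← Finset.sum_sub_distrib, Finset.sum_div]
  exact Finset.sum_congr rfl fun f _ => by ring

omit [DecidableEq X] in
theorem qop_comb (d : X × X → ℝ) (B B' : X × X → X → ℝ) (a b : ℝ) (v : X × X → ℝ) (e : X × X) :
    qop d (a • B + b • B') v e = a * qop d B v e + b * qop d B' v e := by
  simp only [qop, grad, Pi.add_apply, Pi.smul_apply, smul_eq_mul]
  rw [Finset.mul_sum, Finset.mul_sum, ← Finset.sum_add_distrib]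
  exact Finset.sum_congr rfl fun f _ => by ring

omit [DecidableEq X] in
theorem orth_of_localized (d ρ : X × X → ℝ) (B : X × X → X → ℝ)
    (hB : ∀ h f, ∑ e, ρ e * (grad d (B f) e * grad d h e) = ρ f * grad d h f)
    (v : X × X → ℝ) (h : X → ℝ) :
    ∑ e, ρ e * ((v e - qop d B v e) * grad d h e) = 0 := by
  have h1 : ∑ e, ρ e * (qop d B v e * grad d h e) = ∑ f, v f * (ρ f * grad d h f) := by
    simp_rw [← hB h, qop, Finset.sum_mul, Finset.mul_sum]
    rw [Finset.sum_comm]
    exact Finset.sum_congr rfl fun f _ => Finset.sum_congr rfl fun e _ => by ring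
  have h2 : ∀ e, ρ e * ((v e - qop d B v e) * grad d h e) =
      v e * (ρ e * grad d h e) - ρ e * (qop d B v e * grad d h e) := fun e => by ring
  simp_rw [h2]
  rw [Finset.sum_sub_distrib, h1, sub_self]

omit [DecidableEq X] in
theorem contr_of_localized (d ρ : X × X → ℝ) (hρ : ∀ e, 0 < ρ e) (B : X × X → X → ℝ)
    (hB : ∀ h f, ∑ e, ρ e * (grad d (B f) e * grad d h e) = ρ f * grad d h f)
    (v : X × X → ℝ) :
    ∑ e, ρ e * (v e - qop d B v e) ^ 2 ≤ ∑ e, ρ e * v e ^ 2 := by
  have h1 := orth_of_localized d ρ B hB v (fun x => ∑ f, v f * B f x)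
  simp_rw [← qop_eq_grad] at h1
  have h2 : ∀ e, ρ e * (v e - qop d B v e) ^ 2 =
      ρ e * v e ^ 2 - 2 * (ρ e * ((v e - qop d B v e) * qop d B v e)) -
        ρ e * qop d B v e ^ 2 := fun e => by ring
  simp_rw [h2]
  rw [Finset.sum_sub_distrib, Finset.sum_sub_distrib, ← Finset.mul_sum, h1]
  have : 0 ≤ ∑ e, ρ e * qop d B v e ^ 2 :=
    Finset.sum_nonneg fun e _ => mul_nonneg (hρ e).le (sq_nonneg _)
  linarith

omit [DecidableEq X] in
theorem fix_of_localized (d ρ : X × X → ℝ) (hρ : ∀ e, 0 < ρ e) (B : X × X → X → ℝ)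
    (hB : ∀ h f, ∑ e, ρ e * (grad d (B f) e * grad d h e) = ρ f * grad d h f)
    (h : X → ℝ) (e : X × X) : qop d B (grad d h) e = grad d h e := by
  have h1 := orth_of_localized d ρ B hB (grad d h)
    (fun x => h x - ∑ f, grad d h f * B f x)
  have h2 : ∀ e, grad d (fun x => h x - ∑ f, grad d h f * B f x) e =
      grad d h e - qop d B (grad d h) e := by
    intro e
    rw [qop_eq_grad]
    simp only [grad]; ring
  simp_rw [h2] at h1
  have h3 := (Finset.sum_eq_zero_iff_of_nonneg (fun e _ =>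
    mul_nonneg (hρ e).le (mul_self_nonneg (grad d h e - qop d B (grad d h) e)))).1 h1 e
    (mem_univ e)
  rcases mul_eq_zero.1 h3 with h4 | h4
  · exact absurd h4 (hρ e).ne'
  · have := mul_self_eq_zero.1 h4
    linarith

/-- One linear map onto gradients with all row sums `O(log n)` and a prescribed weighted family of
edge vectors projected with bounded quadratic error at every pair. -/
theorem exists_operator [Nonempty X] (d : X × X → ℝ) (hd : ∀ e, 0 < d e) {J : Type*} [Fintype J]
    (c : J → ℝ) (hc : ∀ j, 0 ≤ c j) (s : J → X × X → ℝ) (G : ℝ) (hG : 0 < G)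
    (hs : ∀ f, ∑ j, c j * s j f ^ 2 ≤ G) (L : ℝ) (hL0 : 0 < L)
    (hL : 8 * Real.log (Fintype.card X) ≤ L) :
    ∃ B : X × X → X → ℝ, (∀ h e, qop d B (grad d h) e = grad d h e) ∧
      (∀ e, ∑ f, |grad d (B f) e| ≤ 5 * L) ∧
      ∀ e, ∑ j, c j * (s j e - qop d B (s j) e) ^ 2 ≤ 5 * G := by
  set S : Set (X × X → X → ℝ) := {B | ∀ h e, qop d B (grad d h) e = grad d h e} with hS
  have hSc : Convex ℝ S := by
    intro B hB B' hB' a b ha hb hab h e
    rw [qop_comb, hB h e, hB' h e, ← add_mul, hab, one_mul]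
  set F : (X × X) ⊕ (X × X) → (X × X → X → ℝ) → ℝ := fun i B =>
    Sum.elim (fun e => (∑ f, |grad d (B f) e|) / L)
      (fun e => (∑ j, c j * (s j e - qop d B (s j) e) ^ 2) / G) i with hF
  have hFc : ∀ i, ConvexOn ℝ S (F i) := by
    rintro (e | e)
    · refine ⟨hSc, fun B _ B' _ a b ha hb hab => ?_⟩
      simp only [hF, Sum.elim_inl, smul_eq_mul]
      rw [← mul_div_assoc, ← mul_div_assoc, ← add_div]
      refine div_le_div_of_nonneg_right ?_ hL0.le
      rw [Finset.mul_sum, Finset.mul_sum, ← Finset.sum_add_distrib]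
      refine Finset.sum_le_sum fun f _ => ?_
      have : grad d ((a • B + b • B') f) e = a * grad d (B f) e + b * grad d (B' f) e := by
        simp only [grad, Pi.add_apply, Pi.smul_apply, smul_eq_mul]; ring
      rw [this]
      refine (abs_add_le _ _).trans (le_of_eq ?_)
      rw [abs_mul, abs_mul, abs_of_nonneg ha, abs_of_nonneg hb]
    · refine ⟨hSc, fun B _ B' _ a b ha hb hab => ?_⟩
      simp only [hF, Sum.elim_inr, smul_eq_mul]
      rw [← mul_div_assoc, ← mul_div_assoc, ← add_div]
      refine div_le_div_of_nonneg_right ?_ hG.le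
      rw [Finset.mul_sum, Finset.mul_sum, ← Finset.sum_add_distrib]
      refine Finset.sum_le_sum fun j _ => ?_
      rw [qop_comb]
      have hb' : b = 1 - a := by linarith
      have h1 : (s j e - (a * qop d B (s j) e + b * qop d B' (s j) e)) ^ 2 ≤
          a * (s j e - qop d B (s j) e) ^ 2 + b * (s j e - qop d B' (s j) e) ^ 2 := by
        have : a * (s j e - qop d B (s j) e) ^ 2 + b * (s j e - qop d B' (s j) e) ^ 2 -
            (s j e - (a * qop d B (s j) e + b * qop d B' (s j) e)) ^ 2 =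
            a * b * (qop d B (s j) e - qop d B' (s j) e) ^ 2 := by rw [hb']; ring
        have h2 : 0 ≤ a * b * (qop d B (s j) e - qop d B' (s j) e) ^ 2 := by positivity
        linarith
      have := mul_le_mul_of_nonneg_left h1 (hc j)
      linarith
  obtain ⟨B, hB, hBF⟩ := minimax_fun S F hFc 4 5 (by norm_num) (fun σ hσ0 hσ1 => by
    have hN : (0 : ℝ) < Fintype.card (X × X) := by exact_mod_cast Fintype.card_pos
    set ρ : X × X → ℝ := fun e =>
      (σ (Sum.inl e) + σ (Sum.inr e) + 1 / Fintype.card (X × X)) / 2 with hρ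
    have hρ0 : ∀ e, 0 < ρ e := fun e => by
      have := hσ0 (Sum.inl e); have := hσ0 (Sum.inr e)
      simp only [hρ]; positivity
    have hρ1 : ∑ e, ρ e = 1 := by
      simp only [hρ]
      rw [Fintype.sum_sum_type] at hσ1
      rw [← Finset.sum_div, Finset.sum_add_distrib, Finset.sum_add_distrib, hσ1, Finset.sum_const,
        card_univ, nsmul_eq_mul]
      field_simp
      norm_num
    obtain ⟨B, hB1, hB2⟩ := exists_localized d ρ hd hρ0 hρ1
    refine ⟨B, fix_of_localized d ρ hρ0 B hB1, ?_⟩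
    rw [Fintype.sum_sum_type]
    simp only [hF, Sum.elim_inl, Sum.elim_inr]
    have hl : ∀ e, σ (Sum.inl e) ≤ 2 * ρ e := fun e => by
      have := hσ0 (Sum.inr e)
      have : (0 : ℝ) ≤ 1 / Fintype.card (X × X) := by positivity
      simp only [hρ]; linarith
    have hr : ∀ e, σ (Sum.inr e) ≤ 2 * ρ e := fun e => by
      have := hσ0 (Sum.inl e)
      have : (0 : ℝ) ≤ 1 / Fintype.card (X × X) := by positivity
      simp only [hρ]; linarith
    have t1 : ∑ e, σ (Sum.inl e) * ((∑ f, |grad d (B f) e|) / L) ≤ 2 := by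
      have : ∑ e, σ (Sum.inl e) * ((∑ f, |grad d (B f) e|) / L) ≤
          ∑ e, 2 / L * (ρ e * ∑ f, |grad d (B f) e|) := by
        refine Finset.sum_le_sum fun e _ => ?_
        have h0 : 0 ≤ (∑ f, |grad d (B f) e|) / L :=
          div_nonneg (Finset.sum_nonneg fun f _ => abs_nonneg _) hL0.le
        refine (mul_le_mul_of_nonneg_right (hl e) h0).trans (le_of_eq ?_)
        ring
      rw [← Finset.mul_sum] at this
      refine this.trans ?_
      rw [div_mul_eq_mul_div, div_le_iff₀ hL0]
      linarith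
    have t2 : ∑ e, σ (Sum.inr e) * ((∑ j, c j * (s j e - qop d B (s j) e) ^ 2) / G) ≤ 2 := by
      have h1 : ∑ e, σ (Sum.inr e) * ((∑ j, c j * (s j e - qop d B (s j) e) ^ 2) / G) ≤
          ∑ e, 2 / G * (ρ e * ∑ j, c j * (s j e - qop d B (s j) e) ^ 2) := by
        refine Finset.sum_le_sum fun e _ => ?_
        have h0 : 0 ≤ (∑ j, c j * (s j e - qop d B (s j) e) ^ 2) / G :=
          div_nonneg (Finset.sum_nonneg fun j _ => mul_nonneg (hc j) (sq_nonneg _)) hG.le
        refine (mul_le_mul_of_nonneg_right (hr e) h0).trans (le_of_eq ?_)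
        ring
      rw [← Finset.mul_sum] at h1
      refine h1.trans ?_
      have h2 : ∑ e, ρ e * ∑ j, c j * (s j e - qop d B (s j) e) ^ 2 =
          ∑ j, c j * ∑ e, ρ e * (s j e - qop d B (s j) e) ^ 2 := by
        simp_rw [Finset.mul_sum]
        rw [Finset.sum_comm]
        exact Finset.sum_congr rfl fun j _ => Finset.sum_congr rfl fun e _ => by ring
      have h3 : ∑ j, c j * ∑ e, ρ e * (s j e - qop d B (s j) e) ^ 2 ≤
          ∑ j, c j * ∑ e, ρ e * s j e ^ 2 :=
        Finset.sum_le_sum fun j _ =>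
          mul_le_mul_of_nonneg_left (contr_of_localized d ρ hρ0 B hB1 (s j)) (hc j)
      have h4 : ∑ j, c j * ∑ e, ρ e * s j e ^ 2 = ∑ e, ρ e * ∑ j, c j * s j e ^ 2 := by
        simp_rw [Finset.mul_sum]
        rw [Finset.sum_comm]
        exact Finset.sum_congr rfl fun j _ => Finset.sum_congr rfl fun e _ => by ring
      have h5 : ∑ e, ρ e * ∑ j, c j * s j e ^ 2 ≤ ∑ e, ρ e * G :=
        Finset.sum_le_sum fun e _ => mul_le_mul_of_nonneg_left (hs e) (hρ0 e).le
      rw [← Finset.sum_mul, hρ1, one_mul] at h5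
      rw [div_mul_eq_mul_div, div_le_iff₀ hG]
      linarith
    linarith)
  refine ⟨B, hB, fun e => ?_, fun e => ?_⟩
  · have := hBF (Sum.inl e)
    simp only [hF, Sum.elim_inl] at this
    rw [div_lt_iff₀ hL0] at this
    exact this.le
  · have := hBF (Sum.inr e)
    simp only [hF, Sum.elim_inr] at this
    rw [div_lt_iff₀ hG] at this
    exact this.le

end Crest.Agent.R232
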