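import Crest.Agent.R232.Ineq
import Crest.Agent.R232.Operator

set_option autoImplicit false

namespace Crest.Agent.R232

open Finset

theorem half_rpow_lt_one {γ : ℝ} (hγ : 0 < γ) : (1 / 2 : ℝ) ^ γ < 1 :=
  Real.rpow_lt_one (by norm_num) (by norm_num) hγ

theorem one_lt_half_rpow {γ : ℝ} (hγ : 0 < γ) : 1 < (1 / 2 : ℝ) ^ (-γ) :=
  Real.one_lt_rpow_of_pos_of_lt_one_of_neg (by norm_num) (by norm_num) (by linarith)

theorem geom_tail {γ : ℝ} (hγ : 0 < γ) (j N : ℕ) :
    ∑ i ∈ range N, (if j ≤ i then ((1 / 2 : ℝ) ^ i) ^ γ else 0) ≤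
      ((1 / 2 : ℝ) ^ j) ^ γ / (1 - (1 / 2 : ℝ) ^ γ) := by
  have h := geom_sum_Ico_le_of_lt_one (m := j) (n := N)
    (Real.rpow_nonneg (by norm_num : (0 : ℝ) ≤ 1 / 2) γ) (half_rpow_lt_one hγ)
  simp_rw [Real.rpow_pow_comm (by norm_num : (0 : ℝ) ≤ 1 / 2)] at h
  refine le_trans (le_of_eq ?_) h
  rw [← Finset.sum_filter]
  refine Finset.sum_congr ?_ fun _ _ => rfl
  ext i; simp only [mem_filter, mem_range, mem_Ico]; omega

theorem geom_head {γ : ℝ} (hγ : 0 < γ) (j N : ℕ) :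
    ∑ i ∈ range N, (if i < j then ((1 / 2 : ℝ) ^ i) ^ (-γ) else 0) ≤
      ((1 / 2 : ℝ) ^ j) ^ (-γ) / ((1 / 2 : ℝ) ^ (-γ) - 1) := by
  have h1 := one_lt_half_rpow hγ
  have h := geom_sum_eq h1.ne' j
  simp_rw [Real.rpow_pow_comm (by norm_num : (0 : ℝ) ≤ 1 / 2)] at h
  rw [← Finset.sum_filter]
  have h2 : ∑ i ∈ (range N).filter (· < j), ((1 / 2 : ℝ) ^ i) ^ (-γ) ≤
      ∑ i ∈ range j, ((1 / 2 : ℝ) ^ i) ^ (-γ) :=
    Finset.sum_le_sum_of_subset_of_nonneg (fun i hi => by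
      simp only [mem_filter, mem_range] at hi ⊢; exact hi.2) fun i _ _ => by positivity
  refine h2.trans ?_
  rw [h]
  exact div_le_div_of_nonneg_right (by linarith) (by linarith)

theorem exists_minsum {α β : ℝ} (hα : 0 < α) (hβ : 0 < β) :
    ∃ K : ℝ, 0 < K ∧ ∀ (A B : ℝ) (e : ℕ → ℝ) (N : ℕ), 0 ≤ A → 0 ≤ B → (∀ i, 0 ≤ e i) →
      (∀ i, e i ≤ A * ((1 / 2 : ℝ) ^ i) ^ α) → (∀ i, e i ≤ B * ((1 / 2 : ℝ) ^ i) ^ (-β)) →
      (∑ i ∈ range N, e i) ^ (α + β) ≤ K * (A ^ β * B ^ α) := by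
  have h1 := half_rpow_lt_one hα
  have h2 := one_lt_half_rpow hβ
  have h0 : 0 < (1 / 2 : ℝ) ^ α := by positivity
  set K₀ := 1 / (1 - (1 / 2 : ℝ) ^ α) + (1 / 2 : ℝ) ^ (-β) / ((1 / 2 : ℝ) ^ (-β) - 1) with hK₀
  have hK₀0 : 0 < K₀ := by
    have : 0 < 1 - (1 / 2 : ℝ) ^ α := by linarith
    have : 0 < (1 / 2 : ℝ) ^ (-β) - 1 := by linarith
    positivity
  refine ⟨K₀ ^ (α + β), by positivity, fun A B e N hA hB he h3 h4 => ?_⟩
  have hs : 0 < α + β := by linarith
  set G := (A ^ β * B ^ α) ^ (α + β)⁻¹ with hG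
  have hG0 : 0 ≤ G := by positivity
  have hGp : G ^ (α + β) = A ^ β * B ^ α := Real.rpow_inv_rpow (by positivity) hs.ne'
  have key := sum_le_of_two_geom h0 h1 h2 hA hB hG0 e N
    (fun i => by rw [Real.rpow_pow_comm (by norm_num)]; exact h3 i)
    (fun i => by rw [Real.rpow_pow_comm (by norm_num)]; exact h4 i)
    (fun i => by
      rw [Real.rpow_pow_comm (by norm_num), Real.rpow_pow_comm (by norm_num)]
      by_contra hcon
      push Not at hcon
      set a := (1 / 2 : ℝ) ^ i with ha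
      have ha0 : 0 < a := by positivity
      have t1 : G ^ β < (A * a ^ α) ^ β := Real.rpow_lt_rpow hG0 hcon.1 hβ
      have t2 : G ^ α < (B * a ^ (-β)) ^ α := Real.rpow_lt_rpow hG0 hcon.2 hα
      have t3 : G ^ β * G ^ α < (A * a ^ α) ^ β * (B * a ^ (-β)) ^ α :=
        mul_lt_mul'' t1 t2 (by positivity) (by positivity)
      rw [← Real.rpow_add' hG0 (by linarith), add_comm β α, hGp,
        Real.mul_rpow hA (by positivity), Real.mul_rpow hB (by positivity),
        ← Real.rpow_mul ha0.le, ← Real.rpow_mul ha0.le] at t3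
      have t4 : a ^ (α * β) * a ^ (-β * α) = 1 := by
        rw [← Real.rpow_add ha0, show α * β + -β * α = 0 by ring, Real.rpow_zero]
      have t5 : A ^ β * a ^ (α * β) * (B ^ α * a ^ (-β * α)) =
          A ^ β * B ^ α * (a ^ (α * β) * a ^ (-β * α)) := by ring
      rw [t5, t4, mul_one] at t3
      exact lt_irrefl _ t3)
  rw [← hGp, ← Real.mul_rpow hK₀0.le hG0]
  exact Real.rpow_le_rpow (Finset.sum_nonneg fun i _ => he i) key hs.le

section
variable {X : Type*} [Fintype X]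

/-- The part of `u` of depth greater than `i`. -/
noncomputable def small (u : X × X → ℝ) (δ : X × X → ℕ) (i : ℕ) (f : X × X) : ℝ :=
  if i < δ f then u f else 0

/-- The part of `u` of depth at most `i`. -/
noncomputable def big (u : X × X → ℝ) (δ : X × X → ℕ) (i : ℕ) (f : X × X) : ℝ :=
  if δ f ≤ i then u f else 0

/-- The projection error `(I - Q) v`. -/
noncomputable def perr (d : X × X → ℝ) (B : X × X → X → ℝ) (v : X × X → ℝ) (e : X × X) : ℝ :=
  v e - qop d B v e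

theorem perr_small (d : X × X → ℝ) (B : X × X → X → ℝ) (u : X × X → ℝ) (δ : X × X → ℕ)
    (hu : ∀ e, qop d B u e = u e) (i : ℕ) (e : X × X) :
    perr d B (small u δ i) e = -perr d B (big u δ i) e := by
  have h1 : ∀ f, small u δ i f + big u δ i f = u f := fun f => by
    simp only [small, big]
    rcases lt_or_ge i (δ f) with h | h
    · rw [if_pos h, if_neg (by omega), add_zero]
    · rw [if_neg (by omega), if_pos h, zero_add]
  have h2 : qop d B (small u δ i) e + qop d B (big u δ i) e = u e := by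
    rw [← hu e, qop, qop, qop, ← Finset.sum_add_distrib]
    exact Finset.sum_congr rfl fun f _ => by rw [← add_mul, h1]
  have h3 := h1 e
  simp only [perr]; linarith

theorem abs_perr_le (d : X × X → ℝ) (B : X × X → X → ℝ) (v : X × X → ℝ) (e : X × X) :
    |perr d B v e| ≤ |v e| + ∑ f, |grad d (B f) e| * |v f| := by
  refine (abs_sub _ _).trans (add_le_add le_rfl ?_)
  refine (Finset.abs_sum_le_sum_abs _ _).trans (le_of_eq ?_)
  exact Finset.sum_congr rfl fun f _ => by rw [abs_mul, mul_comm]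

end

theorem sq_mul_rpow_sub_two (p : ℝ) (t : ℝ) (ht : t ≠ 0) :
    t ^ 2 * |t| ^ (p - 2) = |t| ^ p := by
  have h : 0 < |t| := abs_pos.2 ht
  rw [← sq_abs, ← Real.rpow_two, ← Real.rpow_add h]
  congr 1; ring

/-- Commutator estimate, case `p > 2`. -/
theorem comm_gt {p : ℝ} (hp : 2 < p) :
    ∃ K : ℝ, 0 < K ∧ ∀ (X Ω : Type) [Fintype X] [DecidableEq X] [Nonempty X] [Fintype Ω]
      (d : X × X → ℝ) (φ : Ω → X → ℝ) (δ : Ω → X × X → ℕ) (J : ℕ) (L : ℝ),
      (∀ e, 0 < d e) → (∀ e, ∑ ω, |grad d (φ ω) e| ^ p ≤ 1) →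
      (∀ ω e, |grad d (φ ω) e| ≤ (1 / 2) ^ δ ω e) →
      (∀ ω e, grad d (φ ω) e ≠ 0 → (1 / 2 : ℝ) ^ δ ω e ≤ 2 * |grad d (φ ω) e|) →
      1 ≤ L → 8 * Real.log (Fintype.card X) ≤ L →
      ∃ B : X × X → X → ℝ, (∀ h e, qop d B (grad d h) e = grad d h e) ∧
        (∀ e, ∑ f, |grad d (B f) e| ≤ 5 * L) ∧
        ∀ e, ∑ ω, (∑ i ∈ range J, |perr d B (small (grad d (φ ω)) (δ ω) i) e|) ^ p ≤
          K * L ^ |p - 2| := by
  have hγ : 0 < p - 2 := by linarith
  obtain ⟨K₀, hK₀, hmin⟩ := exists_minsum (α := 1) (β := (p - 2) / 2) one_pos (by linarith)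
  have hθ := half_rpow_lt_one hγ
  set G : ℝ := 2 ^ (p - 2) / (1 - (1 / 2 : ℝ) ^ (p - 2)) with hG
  have hG0 : 0 < G := by
    have : 0 < 1 - (1 / 2 : ℝ) ^ (p - 2) := by linarith
    positivity
  refine ⟨K₀ ^ 2 * 6 ^ (p - 2) * (5 * G), by positivity,
    fun X Ω _ _ _ _ d φ δ J L hd hu hδ1 hδ2 hL1 hL => ?_⟩
  set u : Ω → X × X → ℝ := fun ω => grad d (φ ω) with hu'
  obtain ⟨B, hB1, hB2, hB3⟩ := exists_operator d hd (J := Ω × Fin J)
    (fun j => ((1 / 2 : ℝ) ^ (j.2 : ℕ)) ^ (p - 2)) (fun j => by positivity)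
    (fun j => big (u j.1) (δ j.1) j.2) G hG0 (fun f => by
      rw [Fintype.sum_prod_type]
      have h1 : ∀ ω, ∑ i : Fin J, ((1 / 2 : ℝ) ^ (i : ℕ)) ^ (p - 2) * big (u ω) (δ ω) i f ^ 2 ≤
          G * |u ω f| ^ p := by
        intro ω
        rw [Fin.sum_univ_eq_sum_range
          (fun i => ((1 / 2 : ℝ) ^ i) ^ (p - 2) * big (u ω) (δ ω) i f ^ 2) J]
        by_cases h0 : u ω f = 0
        · simp only [big, h0, ite_self]
          simp only [ne_eq, OfNat.ofNat_ne_zero, not_false_eq_true, zero_pow, mul_zero,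
            sum_const_zero]
          positivity
        · have h2 : ∑ i ∈ range J, ((1 / 2 : ℝ) ^ i) ^ (p - 2) * big (u ω) (δ ω) i f ^ 2 =
              u ω f ^ 2 * ∑ i ∈ range J,
                (if δ ω f ≤ i then ((1 / 2 : ℝ) ^ i) ^ (p - 2) else 0) := by
            rw [Finset.mul_sum]
            refine Finset.sum_congr rfl fun i _ => ?_
            simp only [big]; split_ifs <;> ring
          rw [h2]
          refine (mul_le_mul_of_nonneg_left (geom_tail hγ _ _) (sq_nonneg _)).trans ?_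
          have h3 : ((1 / 2 : ℝ) ^ δ ω f) ^ (p - 2) ≤ 2 ^ (p - 2) * |u ω f| ^ (p - 2) := by
            rw [← Real.mul_rpow zero_le_two (abs_nonneg _)]
            exact Real.rpow_le_rpow (by positivity) (hδ2 ω f h0) hγ.le
          rw [← sq_mul_rpow_sub_two p _ h0, hG, ← mul_div_assoc,
            div_mul_eq_mul_div]
          refine div_le_div_of_nonneg_right ?_ (by linarith)
          nlinarith [mul_le_mul_of_nonneg_left h3 (sq_nonneg (u ω f))]
      refine (Finset.sum_le_sum fun ω _ => h1 ω).trans ?_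
      rw [← Finset.mul_sum]
      nlinarith [hu f]) L (by linarith) hL
  refine ⟨B, hB1, hB2, fun e => ?_⟩
  have hB3' := hB3 e
  rw [Fintype.sum_prod_type] at hB3'
  set S : Ω → ℝ := fun ω => ∑ i ∈ range J, ((1 / 2 : ℝ) ^ i) ^ (p - 2) *
    perr d B (small (u ω) (δ ω) i) e ^ 2 with hS
  have hS0 : ∀ ω, 0 ≤ S ω := fun ω => Finset.sum_nonneg fun i _ => by positivity
  have hSsum : ∑ ω, S ω ≤ 5 * G := by
    refine le_trans (le_of_eq (Finset.sum_congr rfl fun ω _ => ?_)) hB3'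
    simp only [hS]
    rw [← Fin.sum_univ_eq_sum_range (fun i => ((1 / 2 : ℝ) ^ i) ^ (p - 2) *
      perr d B (small (u ω) (δ ω) i) e ^ 2) J]
    refine Finset.sum_congr rfl fun i _ => ?_
    rw [perr_small d B (u ω) (δ ω) (hB1 (φ ω)), neg_sq, perr]
  have hpt : ∀ ω, (∑ i ∈ range J, |perr d B (small (u ω) (δ ω) i) e|) ^ p ≤
      K₀ ^ 2 * (6 * L) ^ (p - 2) * S ω := by
    intro ω
    have h1 := hmin (6 * L) (√(S ω))
      (fun i => if i < J then |perr d B (small (u ω) (δ ω) i) e| else 0) J (by positivity)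
      (by positivity) (fun i => by split_ifs <;> positivity)
      (fun i => by
        split_ifs with hi
        · have hsm : ∀ f, |small (u ω) (δ ω) i f| ≤ (1 / 2 : ℝ) ^ i := fun f => by
            simp only [small]; split_ifs with h
            · exact (hδ1 ω f).trans (pow_le_pow_of_le_one (by norm_num) (by norm_num) h.le)
            · simp
          refine (abs_perr_le _ _ _ _).trans ?_
          have h2 : ∑ f, |grad d (B f) e| * |small (u ω) (δ ω) i f| ≤
              ∑ f, |grad d (B f) e| * (1 / 2 : ℝ) ^ i :=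
            Finset.sum_le_sum fun f _ => mul_le_mul_of_nonneg_left (hsm f) (abs_nonneg _)
          rw [← Finset.sum_mul] at h2
          have h3 := mul_le_mul_of_nonneg_right (hB2 e) (by positivity : 0 ≤ (1 / 2 : ℝ) ^ i)
          have h4 := hsm e
          have h5 : (1 / 2 : ℝ) ^ i ≤ L * (1 / 2 : ℝ) ^ i :=
            le_mul_of_one_le_left (by positivity) hL1
          rw [Real.rpow_one]
          linarith
        · positivity)
      (fun i => by
        split_ifs with hi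
        · have h2 : ((1 / 2 : ℝ) ^ i) ^ (p - 2) * perr d B (small (u ω) (δ ω) i) e ^ 2 ≤ S ω :=
            Finset.single_le_sum (f := fun i => ((1 / 2 : ℝ) ^ i) ^ (p - 2) *
              perr d B (small (u ω) (δ ω) i) e ^ 2) (fun i _ => by positivity) (mem_range.2 hi)
          set a := (1 / 2 : ℝ) ^ i with ha
          have ha0 : 0 < a := by positivity
          refine abs_le_of_sq_le_sq' ?_ (by positivity) |> abs_le.2
          rw [mul_pow, Real.sq_sqrt (hS0 ω), ← Real.rpow_natCast (a ^ (-((p - 2) / 2))),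
            ← Real.rpow_mul ha0.le]
          have h3 : a ^ (-((p - 2) / 2) * ((2 : ℕ) : ℝ)) = (a ^ (p - 2))⁻¹ := by
            rw [← Real.rpow_neg ha0.le]; congr 1; push_cast; ring
          rw [h3, ← div_eq_mul_inv, le_div_iff₀ (by positivity)]
          linarith
        · positivity)
    have h2 : ∑ i ∈ range J, (if i < J then |perr d B (small (u ω) (δ ω) i) e| else 0) =
        ∑ i ∈ range J, |perr d B (small (u ω) (δ ω) i) e| :=
      Finset.sum_congr rfl fun i hi => if_pos (mem_range.1 hi)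
    rw [h2] at h1
    set H := ∑ i ∈ range J, |perr d B (small (u ω) (δ ω) i) e| with hH
    have hH0 : 0 ≤ H := Finset.sum_nonneg fun i _ => abs_nonneg _
    have h3 : H ^ p = (H ^ (1 + (p - 2) / 2)) ^ 2 := by
      rw [← Real.rpow_natCast, ← Real.rpow_mul hH0]; congr 1; push_cast; ring
    rw [h3]
    refine (pow_le_pow_left₀ (by positivity) h1 2).trans (le_of_eq ?_)
    rw [mul_pow, mul_pow, Real.rpow_one, Real.sq_sqrt (hS0 ω),
      ← Real.rpow_natCast ((6 * L) ^ ((p - 2) / 2)), ← Real.rpow_mul (by positivity)]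
    have : (p - 2) / 2 * ((2 : ℕ) : ℝ) = p - 2 := by push_cast; ring
    rw [this]; ring
  refine (Finset.sum_le_sum fun ω _ => hpt ω).trans ?_
  rw [← Finset.mul_sum, abs_of_pos hγ, Real.mul_rpow (by norm_num) (by linarith)]
  have := mul_le_mul_of_nonneg_left hSsum
    (by positivity : 0 ≤ K₀ ^ 2 * (6 ^ (p - 2) * L ^ (p - 2)))
  linarith

/-- The weighted tail of the large parts, summed over depths. -/
theorem sum_big_le {p : ℝ} (hp : 1 < p) {t : ℝ} {δ : ℕ} (hδ : t ≠ 0 → (1 / 2 : ℝ) ^ δ ≤ 2 * |t|)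
    (k J : ℕ) :
    ∑ i ∈ range J, (if δ + k ≤ i then ((1 / 2 : ℝ) ^ i) ^ (p - 1) * |t| else 0) ≤
      2 ^ (p - 1) / (1 - (1 / 2 : ℝ) ^ (p - 1)) * ((1 / 2 : ℝ) ^ k) ^ (p - 1) * |t| ^ p := by
  have hγ : 0 < p - 1 := by linarith
  have hθ := half_rpow_lt_one hγ
  have hθ' : 0 < 1 - (1 / 2 : ℝ) ^ (p - 1) := by linarith
  by_cases h0 : t = 0
  · subst h0
    simp only [abs_zero, mul_zero, ite_self, sum_const_zero]
    positivity
  · have h2 : ∑ i ∈ range J, (if δ + k ≤ i then ((1 / 2 : ℝ) ^ i) ^ (p - 1) * |t| else 0) =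
        |t| * ∑ i ∈ range J, (if δ + k ≤ i then ((1 / 2 : ℝ) ^ i) ^ (p - 1) else 0) := by
      rw [Finset.mul_sum]
      refine Finset.sum_congr rfl fun i _ => ?_
      split_ifs <;> ring
    rw [h2]
    refine (mul_le_mul_of_nonneg_left (geom_tail hγ _ _) (abs_nonneg _)).trans ?_
    have h3 : ((1 / 2 : ℝ) ^ δ) ^ (p - 1) ≤ 2 ^ (p - 1) * |t| ^ (p - 1) := by
      rw [← Real.mul_rpow zero_le_two (abs_nonneg _)]
      exact Real.rpow_le_rpow (by positivity) (hδ h0) hγ.le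
    rw [rpow_eq_mul_rpow_sub_one hp (abs_nonneg t), pow_add,
      Real.mul_rpow (by positivity) (by positivity), ← mul_div_assoc, div_mul_eq_mul_div,
      div_mul_eq_mul_div]
    refine div_le_div_of_nonneg_right ?_ hθ'.le
    have h4 : 0 ≤ |t| * ((1 / 2 : ℝ) ^ k) ^ (p - 1) := by positivity
    nlinarith [mul_le_mul_of_nonneg_left h3 h4]

/-- Commutator estimate, case `1 < p < 2`. -/
theorem comm_lt {p : ℝ} (hp1 : 1 < p) (hp : p < 2) :
    ∃ K : ℝ, 0 < K ∧ ∀ (X Ω : Type) [Fintype X] [DecidableEq X] [Nonempty X] [Fintype Ω]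
      (d : X × X → ℝ) (φ : Ω → X → ℝ) (δ : Ω → X × X → ℕ) (J : ℕ) (L : ℝ),
      (∀ e, 0 < d e) → (∀ e, ∑ ω, |grad d (φ ω) e| ^ p ≤ 1) →
      (∀ ω e, |grad d (φ ω) e| ≤ (1 / 2) ^ δ ω e) →
      (∀ ω e, grad d (φ ω) e ≠ 0 → (1 / 2 : ℝ) ^ δ ω e ≤ 2 * |grad d (φ ω) e|) →
      1 ≤ L → 8 * Real.log (Fintype.card X) ≤ L →
      ∃ B : X × X → X → ℝ, (∀ h e, qop d B (grad d h) e = grad d h e) ∧
        (∀ e, ∑ f, |grad d (B f) e| ≤ 5 * L) ∧
        ∀ e, ∑ ω, (∑ i ∈ range J, |perr d B (small (grad d (φ ω)) (δ ω) i) e|) ^ p ≤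
          K * L ^ |p - 2| := by
  have hγ : 0 < 2 - p := by linarith
  have hγ1 : 0 < p - 1 := by linarith
  obtain ⟨K₀, hK₀, hmin⟩ := exists_minsum (α := (2 - p) / 2) (β := p - 1) (by linarith) hγ1
  have hΛ := one_lt_half_rpow hγ
  have hθ := half_rpow_lt_one hγ1
  set G : ℝ := 1 / ((1 / 2 : ℝ) ^ (-(2 - p)) - 1) with hG
  have hG0 : 0 < G := by
    have : 0 < (1 / 2 : ℝ) ^ (-(2 - p)) - 1 := by linarith
    positivity
  set G₁ : ℝ := 2 ^ (p - 1) / (1 - (1 / 2 : ℝ) ^ (p - 1)) with hG₁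
  have hG₁0 : 0 < G₁ := by
    have : 0 < 1 - (1 / 2 : ℝ) ^ (p - 1) := by linarith
    positivity
  refine ⟨K₀ ^ 2 * (5 * G + 6 * G₁), by positivity,
    fun X Ω _ _ _ _ d φ δ J L hd hu hδ1 hδ2 hL1 hL => ?_⟩
  have hL0 : 0 < L := by linarith
  set u : Ω → X × X → ℝ := fun ω => grad d (φ ω) with hu'
  obtain ⟨B, hB1, hB2, hB3⟩ := exists_operator d hd (J := Ω × Fin J)
    (fun j => ((1 / 2 : ℝ) ^ (j.2 : ℕ)) ^ (-(2 - p))) (fun j => by positivity)
    (fun j => small (u j.1) (δ j.1) j.2) G hG0 (fun f => by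
      rw [Fintype.sum_prod_type]
      have h1 : ∀ ω, ∑ i : Fin J, ((1 / 2 : ℝ) ^ (i : ℕ)) ^ (-(2 - p)) *
          small (u ω) (δ ω) i f ^ 2 ≤ G * |u ω f| ^ p := by
        intro ω
        rw [Fin.sum_univ_eq_sum_range
          (fun i => ((1 / 2 : ℝ) ^ i) ^ (-(2 - p)) * small (u ω) (δ ω) i f ^ 2) J]
        by_cases h0 : u ω f = 0
        · simp only [small, h0, ite_self]
          simp only [ne_eq, OfNat.ofNat_ne_zero, not_false_eq_true, zero_pow, mul_zero,
            sum_const_zero]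
          positivity
        · have h2 : ∑ i ∈ range J, ((1 / 2 : ℝ) ^ i) ^ (-(2 - p)) * small (u ω) (δ ω) i f ^ 2 =
              u ω f ^ 2 * ∑ i ∈ range J,
                (if i < δ ω f then ((1 / 2 : ℝ) ^ i) ^ (-(2 - p)) else 0) := by
            rw [Finset.mul_sum]
            refine Finset.sum_congr rfl fun i _ => ?_
            simp only [small]; split_ifs <;> ring
          rw [h2]
          refine (mul_le_mul_of_nonneg_left (geom_head hγ _ _) (sq_nonneg _)).trans ?_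
          have h3 : ((1 / 2 : ℝ) ^ δ ω f) ^ (-(2 - p)) ≤ |u ω f| ^ (p - 2) := by
            rw [show -(2 - p) = p - 2 by ring]
            exact Real.rpow_le_rpow_of_nonpos (abs_pos.2 h0) (hδ1 ω f) (by linarith)
          rw [← sq_mul_rpow_sub_two p _ h0, hG, ← mul_div_assoc, div_mul_eq_mul_div, one_mul]
          refine div_le_div_of_nonneg_right ?_ (by linarith)
          exact mul_le_mul_of_nonneg_left h3 (sq_nonneg (u ω f))
      refine (Finset.sum_le_sum fun ω _ => h1 ω).trans ?_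
      rw [← Finset.mul_sum]
      nlinarith [hu f]) L hL0 hL
  refine ⟨B, hB1, hB2, fun e => ?_⟩
  have hB3' := hB3 e
  rw [Fintype.sum_prod_type] at hB3'
  set S : Ω → ℝ := fun ω => ∑ i ∈ range J, ((1 / 2 : ℝ) ^ i) ^ (-(2 - p)) *
    perr d B (small (u ω) (δ ω) i) e ^ 2 with hS
  set Y : Ω → ℝ := fun ω => ∑ i ∈ range J, ((1 / 2 : ℝ) ^ i) ^ (p - 1) *
    |perr d B (small (u ω) (δ ω) i) e| with hY
  have hS0 : ∀ ω, 0 ≤ S ω := fun ω => Finset.sum_nonneg fun i _ => by positivity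
  have hY0 : ∀ ω, 0 ≤ Y ω := fun ω => Finset.sum_nonneg fun i _ => by positivity
  have hSsum : ∑ ω, S ω ≤ 5 * G := by
    refine le_trans (le_of_eq (Finset.sum_congr rfl fun ω _ => ?_)) hB3'
    simp only [hS]
    rw [← Fin.sum_univ_eq_sum_range (fun i => ((1 / 2 : ℝ) ^ i) ^ (-(2 - p)) *
      perr d B (small (u ω) (δ ω) i) e ^ 2) J]
    rfl
  have hYsum : ∑ ω, Y ω ≤ 6 * G₁ * L := by
    set Z : X × X → ℝ := fun f => ∑ ω, ∑ i ∈ range J, ((1 / 2 : ℝ) ^ i) ^ (p - 1) *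
      |big (u ω) (δ ω) i f| with hZ
    have hZ1 : ∀ f, Z f ≤ G₁ := by
      intro f
      have h1 : ∀ ω, ∑ i ∈ range J, ((1 / 2 : ℝ) ^ i) ^ (p - 1) * |big (u ω) (δ ω) i f| ≤
          G₁ * |u ω f| ^ p := by
        intro ω
        have h2 := sum_big_le hp1 (hδ2 ω f) 0 J
        rw [pow_zero, Real.one_rpow, mul_one] at h2
        refine le_trans (le_of_eq (Finset.sum_congr rfl fun i _ => ?_)) h2
        simp only [big, add_zero]; split_ifs
        · rfl
        · simp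
      refine (Finset.sum_le_sum fun ω _ => h1 ω).trans ?_
      rw [← Finset.mul_sum]
      nlinarith [hu f]
    have h1 : ∑ ω, Y ω ≤ Z e + ∑ f, |grad d (B f) e| * Z f := by
      have h2 : ∑ f, |grad d (B f) e| * Z f = ∑ ω, ∑ i ∈ range J, ((1 / 2 : ℝ) ^ i) ^ (p - 1) *
          ∑ f, |grad d (B f) e| * |big (u ω) (δ ω) i f| := by
        simp only [hZ]
        simp_rw [Finset.mul_sum]
        rw [Finset.sum_comm]
        refine Finset.sum_congr rfl fun ω _ => ?_
        rw [Finset.sum_comm]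
        exact Finset.sum_congr rfl fun i _ => Finset.sum_congr rfl fun f _ => by ring
      rw [h2]
      simp only [hZ, hY]
      rw [← Finset.sum_add_distrib]
      refine Finset.sum_le_sum fun ω _ => ?_
      rw [← Finset.sum_add_distrib]
      refine Finset.sum_le_sum fun i _ => ?_
      rw [← mul_add, perr_small d B (u ω) (δ ω) (hB1 (φ ω)), abs_neg]
      exact mul_le_mul_of_nonneg_left (abs_perr_le _ _ _ _) (by positivity)
    have h3 : ∑ f, |grad d (B f) e| * Z f ≤ ∑ f, |grad d (B f) e| * G₁ :=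
      Finset.sum_le_sum fun f _ => mul_le_mul_of_nonneg_left (hZ1 f) (abs_nonneg _)
    rw [← Finset.sum_mul] at h3
    have h4 := mul_le_mul_of_nonneg_right (hB2 e) hG₁0.le
    have h5 := hZ1 e
    nlinarith
  have hpt : ∀ ω, (∑ i ∈ range J, |perr d B (small (u ω) (δ ω) i) e|) ^ p ≤
      K₀ ^ 2 * L ^ (2 - p) * (S ω + Y ω / L) := by
    intro ω
    have h1 := hmin (√(S ω)) (Y ω)
      (fun i => if i < J then |perr d B (small (u ω) (δ ω) i) e| else 0) J (by positivity)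
      (hY0 ω) (fun i => by split_ifs <;> positivity)
      (fun i => by
        split_ifs with hi
        · have h2 : ((1 / 2 : ℝ) ^ i) ^ (-(2 - p)) * perr d B (small (u ω) (δ ω) i) e ^ 2 ≤ S ω :=
            Finset.single_le_sum (f := fun i => ((1 / 2 : ℝ) ^ i) ^ (-(2 - p)) *
              perr d B (small (u ω) (δ ω) i) e ^ 2) (fun i _ => by positivity) (mem_range.2 hi)
          set a := (1 / 2 : ℝ) ^ i with ha
          have ha0 : 0 < a := by positivity
          refine abs_le_of_sq_le_sq' ?_ (by positivity) |> abs_le.2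
          rw [mul_pow, Real.sq_sqrt (hS0 ω), ← Real.rpow_natCast (a ^ ((2 - p) / 2)),
            ← Real.rpow_mul ha0.le]
          have h3 : (2 - p) / 2 * ((2 : ℕ) : ℝ) = 2 - p := by push_cast; ring
          rw [h3]
          rw [Real.rpow_neg ha0.le, ← div_eq_inv_mul, div_le_iff₀ (by positivity)] at h2
          exact h2
        · positivity)
      (fun i => by
        split_ifs with hi
        · have h2 : ((1 / 2 : ℝ) ^ i) ^ (p - 1) * |perr d B (small (u ω) (δ ω) i) e| ≤ Y ω :=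
            Finset.single_le_sum (f := fun i => ((1 / 2 : ℝ) ^ i) ^ (p - 1) *
              |perr d B (small (u ω) (δ ω) i) e|) (fun i _ => by positivity) (mem_range.2 hi)
          set a := (1 / 2 : ℝ) ^ i with ha
          have ha0 : 0 < a := by positivity
          rw [Real.rpow_neg ha0.le, ← div_eq_mul_inv, le_div_iff₀ (by positivity)]
          linarith
        · have := hY0 ω
          positivity)
    have h2 : ∑ i ∈ range J, (if i < J then |perr d B (small (u ω) (δ ω) i) e| else 0) =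
        ∑ i ∈ range J, |perr d B (small (u ω) (δ ω) i) e| :=
      Finset.sum_congr rfl fun i hi => if_pos (mem_range.1 hi)
    rw [h2] at h1
    set H := ∑ i ∈ range J, |perr d B (small (u ω) (δ ω) i) e| with hH
    have hH0 : 0 ≤ H := Finset.sum_nonneg fun i _ => abs_nonneg _
    have h3 : H ^ p = (H ^ ((2 - p) / 2 + (p - 1))) ^ 2 := by
      rw [← Real.rpow_natCast, ← Real.rpow_mul hH0]; congr 1; push_cast; ring
    rw [h3]
    refine (pow_le_pow_left₀ (by positivity) h1 2).trans ?_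
    have h4 : (√(S ω) ^ (p - 1)) ^ 2 = S ω ^ (p - 1) := by
      rw [Real.rpow_pow_comm (Real.sqrt_nonneg _), Real.sq_sqrt (hS0 ω)]
    have h5 : (Y ω ^ ((2 - p) / 2)) ^ 2 = L ^ (2 - p) * (Y ω / L) ^ (2 - p) := by
      rw [← Real.rpow_natCast, ← Real.rpow_mul (hY0 ω),
        ← Real.mul_rpow hL0.le (div_nonneg (hY0 ω) hL0.le), mul_div_cancel₀ _ hL0.ne']
      congr 1; push_cast; ring
    have h6 := Real.geom_mean_le_arith_mean2_weighted hγ1.le hγ.le (hS0 ω)
      (div_nonneg (hY0 ω) hL0.le) (by ring)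
    have h7 : (p - 1) * S ω + (2 - p) * (Y ω / L) ≤ S ω + Y ω / L := by
      have := hS0 ω
      have := div_nonneg (hY0 ω) hL0.le
      nlinarith
    rw [mul_pow, mul_pow, h4, h5]
    have h8 := mul_le_mul_of_nonneg_left (h6.trans h7)
      (by positivity : 0 ≤ K₀ ^ 2 * L ^ (2 - p))
    linarith
  refine (Finset.sum_le_sum fun ω _ => hpt ω).trans ?_
  rw [← Finset.mul_sum, abs_sub_comm, abs_of_pos hγ, Finset.sum_add_distrib, ← Finset.sum_div]
  have h1 : (∑ ω, Y ω) / L ≤ 6 * G₁ := by rw [div_le_iff₀ hL0]; exact hYsum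
  have := mul_le_mul_of_nonneg_left (add_le_add hSsum h1)
    (by positivity : 0 ≤ K₀ ^ 2 * L ^ (2 - p))
  linarith

/-- Commutator estimate. -/
theorem comm_bound {p : ℝ} (hp1 : 1 < p) (hp : p ≠ 2) :
    ∃ K : ℝ, 0 < K ∧ ∀ (X Ω : Type) [Fintype X] [DecidableEq X] [Nonempty X] [Fintype Ω]
      (d : X × X → ℝ) (φ : Ω → X → ℝ) (δ : Ω → X × X → ℕ) (J : ℕ) (L : ℝ),
      (∀ e, 0 < d e) → (∀ e, ∑ ω, |grad d (φ ω) e| ^ p ≤ 1) →
      (∀ ω e, |grad d (φ ω) e| ≤ (1 / 2) ^ δ ω e) →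
      (∀ ω e, grad d (φ ω) e ≠ 0 → (1 / 2 : ℝ) ^ δ ω e ≤ 2 * |grad d (φ ω) e|) →
      1 ≤ L → 8 * Real.log (Fintype.card X) ≤ L →
      ∃ B : X × X → X → ℝ, (∀ h e, qop d B (grad d h) e = grad d h e) ∧
        (∀ e, ∑ f, |grad d (B f) e| ≤ 5 * L) ∧
        ∀ e, ∑ ω, (∑ i ∈ range J, |perr d B (small (grad d (φ ω)) (δ ω) i) e|) ^ p ≤
          K * L ^ |p - 2| := by
  rcases lt_or_gt_of_ne hp with h | h
  · exact comm_lt hp1 h
  · exact comm_gt h

end Crest.Agent.R232
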