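import Crest.Agent.R232.Local
import Crest.Agent.R232.Minimax

set_option autoImplicit false

namespace Crest.Agent.R232

open Finset MeasureTheory
open scoped ENNReal

/-- A configuration of measurable functions is approximated by a finite one, as far as finitely many
integrals of `p`-homogeneous gradients are concerned. -/
theorem exists_discretization {X : Type} [Fintype X] [Nonempty X] {α : Type*} [MeasurableSpace α]
    (μ : Measure α) {p : ℝ} (hp : 0 < p) (d : X × X → ℝ) (g : α → X → ℝ)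
    (hint : ∀ e, Integrable (fun a => |grad d (g a) e| ^ p) μ) {c η : ℝ} (hc : 0 ≤ c)
    (hη : 0 < η) :
    ∃ (Ω : Type) (_ : Fintype Ω) (φ : Ω → X → ℝ), ∀ e,
      abs (∑ ω, |grad d (φ ω) e| ^ p - c * ∫ a, |grad d (g a) e| ^ p ∂μ) ≤ η := by
  classical
  set m : X × X → ℝ := fun e => c * ∫ a, |grad d (g a) e| ^ p ∂μ with hm
  set Y : (X → ℝ) → ((X × X) ⊕ (X × X) → ℝ) := fun φ =>
    Sum.elim (fun e => |grad d φ e| ^ p - m e) (fun e => m e - |grad d φ e| ^ p) with hY
  have hsc : ∀ (t : ℝ), 0 ≤ t → ∀ (φ : X → ℝ) (e : X × X),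
      |grad d (fun x => t ^ p⁻¹ * φ x) e| ^ p = t * |grad d φ e| ^ p := by
    intro t ht φ e
    have : grad d (fun x => t ^ p⁻¹ * φ x) e = t ^ p⁻¹ * grad d φ e := by
      simp only [grad]; ring
    rw [this, abs_mul, abs_of_nonneg (by positivity),
      Real.mul_rpow (by positivity) (abs_nonneg _), Real.rpow_inv_rpow ht hp.ne']
  obtain ⟨y, hy, hyη⟩ := minimax_set (convexHull ℝ (Set.range Y)) (convex_convexHull ℝ _) 0 η hη
    (fun σ _ _ => by
      set l : X × X → ℝ := fun e => σ (Sum.inl e) - σ (Sum.inr e) with hl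
      have hsum : ∀ φ, ∑ i, σ i * Y φ i = ∑ e, l e * |grad d φ e| ^ p - ∑ e, l e * m e := by
        intro φ
        rw [Fintype.sum_sum_type, ← Finset.sum_add_distrib, ← Finset.sum_sub_distrib]
        refine Finset.sum_congr rfl fun e _ => ?_
        simp only [hY, hl, Sum.elim_inl, Sum.elim_inr]; ring
      rcases le_or_gt 0 (∑ e, l e * m e) with h | h
      · refine ⟨Y (fun _ => 0), subset_convexHull ℝ _ ⟨_, rfl⟩, ?_⟩
        rw [hsum]
        simp [grad, Real.zero_rpow hp.ne', h]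
      · have hex : ∃ a, ∑ e, l e * |grad d (g a) e| ^ p < 0 := by
          by_contra hcon
          push Not at hcon
          have h1 : 0 ≤ ∫ a, ∑ e, l e * |grad d (g a) e| ^ p ∂μ := integral_nonneg hcon
          rw [integral_finsetSum _ fun e _ => (hint e).const_mul (l e)] at h1
          simp_rw [integral_const_mul] at h1
          have h2 : ∑ e, l e * m e = c * ∑ e, l e * ∫ a, |grad d (g a) e| ^ p ∂μ := by
            rw [Finset.mul_sum]
            exact Finset.sum_congr rfl fun e _ => by simp only [hm]; ring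
          rw [h2] at h
          nlinarith [mul_nonneg hc h1]
        obtain ⟨a, ha⟩ := hex
        set t := (∑ e, l e * m e) / ∑ e, l e * |grad d (g a) e| ^ p with ht
        have ht0 : 0 ≤ t := (div_pos_of_neg_of_neg h ha).le
        refine ⟨Y (fun x => t ^ p⁻¹ * g a x), subset_convexHull ℝ _ ⟨_, rfl⟩, ?_⟩
        rw [hsum]
        simp_rw [hsc t ht0]
        have h3 : ∑ e, l e * (t * |grad d (g a) e| ^ p) = t * ∑ e, l e * |grad d (g a) e| ^ p := by
          rw [Finset.mul_sum]; exact Finset.sum_congr rfl fun e _ => by ring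
        rw [h3, ht, div_mul_cancel₀ _ ha.ne, sub_self])
  obtain ⟨ι, _, w, z, hw0, hw1, hz, hsum⟩ := mem_convexHull_iff_exists_fintype.1 hy
  choose φ hφ using hz
  refine ⟨ι, inferInstance, fun i x => w i ^ p⁻¹ * φ i x, fun e => ?_⟩
  simp_rw [fun i => hsc (w i) (hw0 i) (φ i) e]
  have h1 : y (Sum.inl e) = ∑ i, w i * |grad d (φ i) e| ^ p - m e := by
    rw [← hsum, Finset.sum_apply]
    simp only [← hφ, hY, Pi.smul_apply, Sum.elim_inl, smul_eq_mul, mul_sub]
    rw [Finset.sum_sub_distrib, ← Finset.sum_mul, hw1, one_mul]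
  have h2 : y (Sum.inr e) = m e - ∑ i, w i * |grad d (φ i) e| ^ p := by
    rw [← hsum, Finset.sum_apply]
    simp only [← hφ, hY, Pi.smul_apply, Sum.elim_inr, smul_eq_mul, mul_sub]
    rw [Finset.sum_sub_distrib, ← Finset.sum_mul, hw1, one_mul]
  have h3 := hyη (Sum.inl e)
  have h4 := hyη (Sum.inr e)
  rw [abs_le]
  change -η ≤ _ - m e ∧ _ - m e ≤ η
  constructor <;> linarith

theorem Lp_norm_sub_rpow {α : Type*} [MeasurableSpace α] {μ : Measure α} {p : ℝ≥0∞} [Fact (1 ≤ p)]
    (hptop : p ≠ ⊤) (f g : Lp ℝ p μ) :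
    Integrable (fun a => |f a - g a| ^ p.toReal) μ ∧
      ∫ a, |f a - g a| ^ p.toReal ∂μ = ‖f - g‖ ^ p.toReal := by
  have hp1 : (1 : ℝ≥0∞) ≤ p := Fact.out
  have hp0 : p ≠ 0 := (zero_lt_one.trans_le hp1).ne'
  have hpr : 0 < p.toReal := ENNReal.toReal_pos hp0 hptop
  have hae : (fun a => ‖(f - g : Lp ℝ p μ) a‖ ^ p.toReal) =ᵐ[μ]
      fun a => |f a - g a| ^ p.toReal := by
    filter_upwards [Lp.coeFn_sub f g] with a ha
    rw [ha, Pi.sub_apply, Real.norm_eq_abs]
  refine ⟨((Lp.memLp (f - g)).integrable_norm_rpow hp0 hptop).congr hae, ?_⟩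
  rw [← integral_congr_ae hae, Lp.norm_def, (Lp.memLp (f - g)).eLpNorm_eq_integral_rpow_norm hp0
    hptop, ENNReal.toReal_ofReal (by positivity), Real.rpow_inv_rpow (by positivity) hpr.ne']

end Crest.Agent.R232
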