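import Crest.Agent.R232.Ineq

set_option autoImplicit false

namespace Crest.Agent.R232

open Finset

variable {J : Type*} [DecidableEq J]

/-- Probability that the random subset of `A` with independent inclusion weights `w` is `B`. -/
noncomputable def wt (w : J → ℝ) (A B : Finset J) : ℝ := (∏ j ∈ B, w j) * ∏ j ∈ A \ B, (1 - w j)

/-- Expectation over the random subset of `A`. -/
noncomputable def ex (w : J → ℝ) (A : Finset J) (F : Finset J → ℝ) : ℝ :=
  ∑ B ∈ A.powerset, wt w A B * F B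

theorem wt_nonneg {w : J → ℝ} (hw0 : ∀ j, 0 ≤ w j) (hw1 : ∀ j, w j ≤ 1) (A B : Finset J) :
    0 ≤ wt w A B :=
  mul_nonneg (Finset.prod_nonneg fun j _ => hw0 j)
    (Finset.prod_nonneg fun j _ => by linarith [hw1 j])

theorem ex_empty (w : J → ℝ) (F : Finset J → ℝ) : ex w ∅ F = F ∅ := by
  simp [ex, wt]

theorem ex_insert (w : J → ℝ) {A : Finset J} {j : J} (hj : j ∉ A) (F : Finset J → ℝ) :
    ex w (insert j A) F = (1 - w j) * ex w A F + w j * ex w A (fun B => F (insert j B)) := by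
  unfold ex
  rw [Finset.sum_powerset_insert hj, Finset.mul_sum, Finset.mul_sum]
  congr 1
  · refine Finset.sum_congr rfl fun B hB => ?_
    have hBA := Finset.mem_powerset.1 hB
    have hjB : j ∉ B := fun h => hj (hBA h)
    have : insert j A \ B = insert j (A \ B) := Finset.insert_sdiff_of_notMem _ hjB
    rw [wt, wt, this, Finset.prod_insert (by simp [hj])]
    ring
  · refine Finset.sum_congr rfl fun B hB => ?_
    have hBA := Finset.mem_powerset.1 hB
    have hjB : j ∉ B := fun h => hj (hBA h)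
    have : insert j A \ insert j B = A \ B := by
      ext x
      simp only [mem_sdiff, mem_insert, not_or]
      constructor
      · rintro ⟨h1 | h1, h2, h3⟩
        · exact absurd h1 h2
        · exact ⟨h1, h3⟩
      · rintro ⟨h1, h2⟩
        exact ⟨Or.inr h1, fun h => hj (h ▸ h1), h2⟩
    rw [wt, wt, this, Finset.prod_insert hjB]
    ring

theorem ex_mono {w : J → ℝ} (hw0 : ∀ j, 0 ≤ w j) (hw1 : ∀ j, w j ≤ 1) {A : Finset J}
    {F G : Finset J → ℝ} (h : ∀ B, B ⊆ A → F B ≤ G B) : ex w A F ≤ ex w A G :=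
  Finset.sum_le_sum fun B hB =>
    mul_le_mul_of_nonneg_left (h B (Finset.mem_powerset.1 hB)) (wt_nonneg hw0 hw1 A B)

theorem ex_const (w : J → ℝ) (A : Finset J) (c : ℝ) : ex w A (fun _ => c) = c := by
  induction A using Finset.induction_on with
  | empty => exact ex_empty _ _
  | insert j A hj ih => rw [ex_insert w hj, ih]; ring

theorem ex_affine (w : J → ℝ) (A : Finset J) (a b : ℝ) (F : Finset J → ℝ) :
    ex w A (fun B => a + b * F B) = a + b * ex w A F := by
  have h := ex_const w A a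
  unfold ex at h ⊢
  rw [Finset.mul_sum]
  conv_rhs => rw [← h]
  rw [← Finset.sum_add_distrib]
  exact Finset.sum_congr rfl fun B _ => by ring

theorem ex_affine2 (w : J → ℝ) (A : Finset J) (a b c : ℝ) (F G : Finset J → ℝ) :
    ex w A (fun B => a + b * F B + c * G B) = a + b * ex w A F + c * ex w A G := by
  rw [← ex_affine w A a b F]
  unfold ex
  rw [Finset.mul_sum, ← Finset.sum_add_distrib]
  exact Finset.sum_congr rfl fun B _ => by ring

/-- Overlaying independent sparse jumps almost preserves the `p`-mass when the `1`-mass is small. -/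
theorem overlay_moment {p δ C : ℝ} (hp : 0 < p) (hδ1 : δ ≤ 1) (hC : 0 ≤ C)
    (hadd : ∀ y z : ℝ,
      abs (|y + z| ^ p - |y| ^ p - |z| ^ p) ≤ δ * |z| ^ p + C * |z| * (1 + |y| ^ p))
    {w : J → ℝ} (hw0 : ∀ j, 0 ≤ w j) (hw1 : ∀ j, w j ≤ 1) (z : J → ℝ) (A₀ : Finset J)
    (hκ : C * ∑ j ∈ A₀, w j * |z j| ≤ 1 / 2) (A : Finset J) (hA : A ⊆ A₀) :
    abs (ex w A (fun B => |∑ j ∈ B, z j| ^ p) - ∑ j ∈ A, w j * |z j| ^ p) ≤
      δ * ∑ j ∈ A, w j * |z j| ^ p +
        C * (∑ j ∈ A, w j * |z j|) * (4 * ∑ j ∈ A₀, w j * |z j| ^ p + 2) := by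
  set U := 4 * ∑ j ∈ A₀, w j * |z j| ^ p + 2 with hU
  have hm0 : 0 ≤ ∑ j ∈ A₀, w j * |z j| ^ p :=
    Finset.sum_nonneg fun j _ => by have := hw0 j; positivity
  induction A using Finset.induction_on with
  | empty => simp [ex_empty, Real.zero_rpow hp.ne']
  | insert j A hj ih =>
    have hA' : A ⊆ A₀ := (Finset.subset_insert j A).trans hA
    have ih' := ih hA'
    rw [ex_insert w hj, Finset.sum_insert hj, Finset.sum_insert hj]
    set M := ex w A (fun B => |∑ j ∈ B, z j| ^ p) with hM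
    have h1 : ∑ j ∈ A, w j * |z j| ^ p ≤ ∑ j ∈ A₀, w j * |z j| ^ p :=
      Finset.sum_le_sum_of_subset_of_nonneg hA' fun j _ _ => by have := hw0 j; positivity
    have h2 : ∑ j ∈ A, w j * |z j| ≤ ∑ j ∈ A₀, w j * |z j| :=
      Finset.sum_le_sum_of_subset_of_nonneg hA' fun j _ _ => by have := hw0 j; positivity
    have h1' : 0 ≤ ∑ j ∈ A, w j * |z j| ^ p :=
      Finset.sum_nonneg fun j _ => by have := hw0 j; positivity
    have hU0 : 0 ≤ U := by rw [hU]; positivity
    have h3 : C * (∑ j ∈ A, w j * |z j|) * U ≤ 1 / 2 * U :=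
      mul_le_mul_of_nonneg_right ((mul_le_mul_of_nonneg_left h2 hC).trans hκ) hU0
    have hMU : 1 + M ≤ U := by
      have := (abs_le.1 ih').2
      nlinarith
    have hup : ex w A (fun B => |∑ i ∈ insert j B, z i| ^ p) ≤
        ((1 + δ) * |z j| ^ p + C * |z j|) + (1 + C * |z j|) * M := by
      rw [hM, ← ex_affine]
      refine ex_mono hw0 hw1 fun B hB => ?_
      rw [Finset.sum_insert (fun h => hj (hB h)), add_comm (z j)]
      have := (abs_le.1 (hadd (∑ i ∈ B, z i) (z j))).2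
      nlinarith
    have hlo : ((1 - δ) * |z j| ^ p - C * |z j|) + (1 - C * |z j|) * M ≤
        ex w A (fun B => |∑ i ∈ insert j B, z i| ^ p) := by
      rw [hM, ← ex_affine]
      refine ex_mono hw0 hw1 fun B hB => ?_
      rw [Finset.sum_insert (fun h => hj (hB h)), add_comm (z j)]
      have := (abs_le.1 (hadd (∑ i ∈ B, z i) (z j))).1
      nlinarith
    have h4 : w j * (C * |z j|) * (1 + M) ≤ w j * (C * |z j|) * U :=
      mul_le_mul_of_nonneg_left hMU (by have := hw0 j; positivity)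
    have h5 := mul_le_mul_of_nonneg_left hup (hw0 j)
    have h6 := mul_le_mul_of_nonneg_left hlo (hw0 j)
    rw [abs_le] at ih' ⊢
    constructor <;> nlinarith [ih'.1, ih'.2]

theorem overlay_moment_le {p δ C : ℝ} (hp : 0 < p) (hδ1 : δ ≤ 1) (hC : 0 ≤ C)
    (hadd : ∀ y z : ℝ,
      abs (|y + z| ^ p - |y| ^ p - |z| ^ p) ≤ δ * |z| ^ p + C * |z| * (1 + |y| ^ p))
    {w : J → ℝ} (hw0 : ∀ j, 0 ≤ w j) (hw1 : ∀ j, w j ≤ 1) (z : J → ℝ) (A₀ : Finset J)
    (hκ : C * ∑ j ∈ A₀, w j * |z j| ≤ 1 / 2) (A : Finset J) (hA : A ⊆ A₀) :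
    1 + ex w A (fun B => |∑ j ∈ B, z j| ^ p) ≤ 4 * ∑ j ∈ A₀, w j * |z j| ^ p + 2 := by
  have h := (abs_le.1 (overlay_moment hp hδ1 hC hadd hw0 hw1 z A₀ hκ A hA)).2
  have h1 : ∑ j ∈ A, w j * |z j| ^ p ≤ ∑ j ∈ A₀, w j * |z j| ^ p :=
    Finset.sum_le_sum_of_subset_of_nonneg hA fun j _ _ => by have := hw0 j; positivity
  have h2 : ∑ j ∈ A, w j * |z j| ≤ ∑ j ∈ A₀, w j * |z j| :=
    Finset.sum_le_sum_of_subset_of_nonneg hA fun j _ _ => by have := hw0 j; positivity
  have h1' : 0 ≤ ∑ j ∈ A, w j * |z j| ^ p :=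
    Finset.sum_nonneg fun j _ => by have := hw0 j; positivity
  have h3 : C * (∑ j ∈ A, w j * |z j|) * (4 * ∑ j ∈ A₀, w j * |z j| ^ p + 2) ≤
      1 / 2 * (4 * ∑ j ∈ A₀, w j * |z j| ^ p + 2) :=
    mul_le_mul_of_nonneg_right ((mul_le_mul_of_nonneg_left h2 hC).trans hκ) (by linarith)
  nlinarith

/-- Clamping the overlay at the maximal jump size costs little. -/
theorem overlay_clamp {p M U : ℝ} (hp : 1 ≤ p) (hM : 0 ≤ M)
    {w : J → ℝ} (hw0 : ∀ j, 0 ≤ w j) (hw1 : ∀ j, w j ≤ 1) (z : J → ℝ) (hz : ∀ j, |z j| ≤ M)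
    (A₀ : Finset J) (hU : ∀ A, A ⊆ A₀ → 1 + ex w A (fun B => |∑ j ∈ B, z j| ^ p) ≤ U)
    (A : Finset J) (hA : A ⊆ A₀) :
    ex w A (fun B => |∑ j ∈ B, z j - clampTo M (∑ j ∈ B, z j)| ^ p) ≤
      p * (∑ j ∈ A, w j * |z j|) * U := by
  induction A using Finset.induction_on with
  | empty =>
    rw [ex_empty, abs_sub_clampTo hM]
    simp [hM, Real.zero_rpow (show p ≠ 0 by linarith)]
  | insert j A hj ih =>
    have hA' : A ⊆ A₀ := (Finset.subset_insert j A).trans hA
    have ih' := ih hA'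
    rw [ex_insert w hj, Finset.sum_insert hj]
    have hup : ex w A (fun B => |∑ i ∈ insert j B, z i - clampTo M (∑ i ∈ insert j B, z i)| ^ p) ≤
        p * |z j| + 1 * ex w A (fun B => |∑ j ∈ B, z j - clampTo M (∑ j ∈ B, z j)| ^ p) +
          p * |z j| * ex w A (fun B => |∑ j ∈ B, z j| ^ p) := by
      rw [← ex_affine2]
      refine ex_mono hw0 hw1 fun B hB => ?_
      rw [Finset.sum_insert (fun h => hj (hB h)), add_comm (z j)]
      have := clamp_step hp hM (∑ i ∈ B, z i) (z j) (hz j)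
      nlinarith
    have h4 : w j * (p * |z j|) * (1 + ex w A (fun B => |∑ j ∈ B, z j| ^ p)) ≤
        w j * (p * |z j|) * U :=
      mul_le_mul_of_nonneg_left (hU A hA') (by have := hw0 j; positivity)
    have h5 := mul_le_mul_of_nonneg_left hup (hw0 j)
    nlinarith

end Crest.Agent.R232
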