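import Crest.Agent.R232.Window
import Crest.Agent.R232.Overlay

set_option autoImplicit false

namespace Crest.Agent.R232

open Finset

theorem exists_depth (t : ℝ) (ht : |t| ≤ 1) :
    ∃ δ : ℕ, |t| ≤ (1 / 2 : ℝ) ^ δ ∧ (t ≠ 0 → (1 / 2 : ℝ) ^ δ ≤ 2 * |t|) := by
  by_cases h0 : t = 0
  · exact ⟨0, by simpa using ht, fun h => absurd h0 h⟩
  · obtain ⟨n, h1, h2⟩ := exists_nat_pow_near_of_lt_one (abs_pos.2 h0) ht
      (by norm_num : (0 : ℝ) < 1 / 2) (by norm_num)
    refine ⟨n, h2, fun _ => ?_⟩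
    rw [pow_succ] at h1
    linarith

section
variable {X : Type*} [Fintype X] {J : Type*} [DecidableEq J]

omit [DecidableEq J] in
theorem qop_sum (d : X × X → ℝ) (B : X × X → X → ℝ) (v : J → X × X → ℝ) (b : Finset J)
    (e : X × X) : qop d B (fun f => ∑ j ∈ b, v j f) e = ∑ j ∈ b, qop d B (v j) e := by
  simp only [qop]
  simp_rw [Finset.sum_mul]
  exact Finset.sum_comm

theorem ex_sum {ι : Type*} (w : J → ℝ) (A : Finset J) (s : Finset ι) (c : ι → ℝ)
    (F : ι → Finset J → ℝ) :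
    ex w A (fun b => ∑ i ∈ s, c i * F i b) = ∑ i ∈ s, c i * ex w A (F i) := by
  unfold ex
  simp_rw [Finset.mul_sum]
  rw [Finset.sum_comm]
  exact Finset.sum_congr rfl fun i _ => Finset.sum_congr rfl fun b _ => by ring

/-- Overlay, clamp and project: the core estimate. -/
theorem flat_core {p δ Ca Cb η κ T M S μ : ℝ} (hp : 1 < p) (hδ0 : 0 ≤ δ) (hδ1 : δ ≤ 1)
    (hCa : 0 ≤ Ca) (hCb : 0 ≤ Cb) (hM : 0 ≤ M) (hT : 1 ≤ T) (hS : 1 ≤ S) (hκ0 : 0 ≤ κ)
    (hadd : ∀ y z : ℝ,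
      abs (|y + z| ^ p - |y| ^ p - |z| ^ p) ≤ δ * |z| ^ p + Ca * |z| * (1 + |y| ^ p))
    (hper : ∀ a b : ℝ, abs (|a + b| ^ p - |a| ^ p) ≤ δ * |a| ^ p + Cb * |b| ^ p)
    (hη : Cb * η ≤ 1) (hκ : Ca * (T ^ p * κ) ≤ 1 / 2)
    (d : X × X → ℝ) (B : X × X → X → ℝ) (e : X × X) (hrow : ∑ f, |grad d (B f) e| ≤ T)
    {w : J → ℝ} (hw0 : ∀ j, 0 ≤ w j) (hw1 : ∀ j, w j ≤ 1) (A : Finset J) (v : J → X × X → ℝ)
    (hvM : ∀ j f, |v j f| ≤ M) (hvp : ∀ f, ∑ j ∈ A, w j * |v j f| ^ p ≤ S)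
    (hve : ∑ j ∈ A, w j * |v j e| ^ p = S * μ) (hv1 : ∀ f, ∑ j ∈ A, w j * |v j f| ≤ κ)
    (herr : ∑ j ∈ A, w j * |perr d B (v j) e| ^ p ≤ η * S) :
    abs (ex w A (fun b => |qop d B (fun f => clampTo M (∑ j ∈ b, v j f)) e| ^ p) - S * μ) ≤
      (18 * δ + Cb * η + (14 * Ca + 6 * p * Cb) * (T ^ p * κ)) * S := by
  have hp0 : 0 < p := by linarith
  have hTp : T ≤ T ^ p := by
    have := Real.rpow_le_rpow_of_exponent_le hT hp.le
    rwa [Real.rpow_one] at this
  set κ' := T ^ p * κ with hκ'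
  have hκ1 : T * κ ≤ κ' := mul_le_mul_of_nonneg_right hTp hκ0
  have hκ2 : κ ≤ κ' := le_trans (le_mul_of_one_le_left hκ0 hT) hκ1
  set z : J → ℝ := fun j => qop d B (v j) e with hz
  set mz := ∑ j ∈ A, w j * |z j| ^ p with hmz
  have hSμ : S * μ ≤ S := hve ▸ hvp e
  have hSμ0 : 0 ≤ S * μ := hve ▸ Finset.sum_nonneg fun j _ => by have := hw0 j; positivity
  -- the `p`-mass of the projected jumps
  have h1 : |mz - S * μ| ≤ δ * S + Cb * η * S := by
    rw [← hve, hmz, ← Finset.sum_sub_distrib]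
    refine (Finset.abs_sum_le_sum_abs _ _).trans ?_
    have h2 : ∀ j ∈ A, abs (w j * |z j| ^ p - w j * |v j e| ^ p) ≤
        δ * (w j * |v j e| ^ p) + Cb * (w j * |perr d B (v j) e| ^ p) := by
      intro j _
      have h3 := hper (v j e) (-perr d B (v j) e)
      have h4 : v j e + -perr d B (v j) e = z j := by simp only [hz, perr]; ring
      rw [h4, abs_neg] at h3
      rw [← mul_sub, abs_mul, abs_of_nonneg (hw0 j)]
      nlinarith [mul_le_mul_of_nonneg_left h3 (hw0 j)]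
    refine (Finset.sum_le_sum h2).trans ?_
    rw [Finset.sum_add_distrib, ← Finset.mul_sum, ← Finset.mul_sum]
    nlinarith [mul_le_mul_of_nonneg_left (hvp e) hδ0, mul_le_mul_of_nonneg_left herr hCb]
  have hmz3 : mz ≤ 3 * S := by
    have := (abs_le.1 h1).2
    nlinarith
  have hmz0 : 0 ≤ mz := Finset.sum_nonneg fun j _ => by have := hw0 j; positivity
  -- the `1`-mass of the projected jumps
  have hz1 : ∑ j ∈ A, w j * |z j| ≤ κ' := by
    have h2 : ∑ j ∈ A, w j * |z j| ≤ ∑ j ∈ A, ∑ f, |grad d (B f) e| * (w j * |v j f|) := by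
      refine Finset.sum_le_sum fun j _ => ?_
      simp only [hz, qop]
      refine (mul_le_mul_of_nonneg_left (Finset.abs_sum_le_sum_abs _ _) (hw0 j)).trans
        (le_of_eq ?_)
      rw [Finset.mul_sum]
      exact Finset.sum_congr rfl fun f _ => by rw [abs_mul]; ring
    rw [Finset.sum_comm] at h2
    have h3 : ∑ f, ∑ j ∈ A, |grad d (B f) e| * (w j * |v j f|) ≤ ∑ f, |grad d (B f) e| * κ := by
      refine Finset.sum_le_sum fun f _ => ?_
      rw [← Finset.mul_sum]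
      exact mul_le_mul_of_nonneg_left (hv1 f) (abs_nonneg _)
    rw [← Finset.sum_mul] at h3
    nlinarith [mul_le_mul_of_nonneg_right hrow hκ0]
  have hz1' : Ca * ∑ j ∈ A, w j * |z j| ≤ 1 / 2 := (mul_le_mul_of_nonneg_left hz1 hCa).trans hκ
  set EZ := ex w A (fun b => |∑ j ∈ b, z j| ^ p) with hEZ
  have h5 : |EZ - mz| ≤ 3 * δ * S + 14 * Ca * κ' * S := by
    refine (overlay_moment hp0 hδ1 hCa hadd hw0 hw1 z A hz1' A subset_rfl).trans ?_
    rw [← hmz]
    have h6 : Ca * (∑ j ∈ A, w j * |z j|) * (4 * mz + 2) ≤ Ca * κ' * (14 * S) :=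
      mul_le_mul (mul_le_mul_of_nonneg_left hz1 hCa) (by linarith) (by linarith)
        (mul_nonneg hCa (hκ0.trans hκ2))
    nlinarith [mul_le_mul_of_nonneg_left hmz3 hδ0]
  have hEZ1 : EZ ≤ 14 * S := by
    have := overlay_moment_le hp0 hδ1 hCa hadd hw0 hw1 z A hz1' A subset_rfl
    rw [← hmz, ← hEZ] at this
    linarith
  -- the clamping error
  have h7 : ∀ f, ex w A (fun b => |∑ j ∈ b, v j f - clampTo M (∑ j ∈ b, v j f)| ^ p) ≤
      6 * p * κ * S := by
    intro f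
    have h8 : Ca * ∑ j ∈ A, w j * |v j f| ≤ 1 / 2 :=
      (mul_le_mul_of_nonneg_left ((hv1 f).trans hκ2) hCa).trans hκ
    refine (overlay_clamp (U := 6 * S) hp.le hM hw0 hw1 (fun j => v j f) (fun j => hvM j f) A
      (fun A' hA' => ?_) A subset_rfl).trans ?_
    · have := overlay_moment_le hp0 hδ1 hCa hadd hw0 hw1 (fun j => v j f) A h8 A' hA'
      linarith [hvp f]
    · have := mul_le_mul_of_nonneg_right (mul_le_mul_of_nonneg_left (hv1 f) hp0.le)
        (by linarith : 0 ≤ 6 * S)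
      linarith
  set Er : Finset J → ℝ := fun b =>
    |∑ f, (∑ j ∈ b, v j f - clampTo M (∑ j ∈ b, v j f)) * grad d (B f) e| ^ p with hEr
  have h9 : ex w A Er ≤ 6 * p * κ' * S := by
    have h10 : ex w A Er ≤ ex w A (fun b => ∑ f, (T ^ (p - 1) * |grad d (B f) e|) *
        |∑ j ∈ b, v j f - clampTo M (∑ j ∈ b, v j f)| ^ p) := by
      refine ex_mono hw0 hw1 fun b _ => ?_
      refine (abs_sum_rpow_le univ hp.le (fun f => grad d (B f) e)
        (fun f => ∑ j ∈ b, v j f - clampTo M (∑ j ∈ b, v j f)) hrow).trans (le_of_eq ?_)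
      rw [Finset.mul_sum]
      exact Finset.sum_congr rfl fun f _ => by ring
    rw [ex_sum] at h10
    have hT0 : 0 ≤ T := by linarith
    have h11 : ∑ f, (T ^ (p - 1) * |grad d (B f) e|) *
        ex w A (fun b => |∑ j ∈ b, v j f - clampTo M (∑ j ∈ b, v j f)| ^ p) ≤
        ∑ f, (T ^ (p - 1) * (6 * p * κ * S)) * |grad d (B f) e| := by
      refine Finset.sum_le_sum fun f _ => ?_
      have := mul_le_mul_of_nonneg_left (h7 f)
        (by positivity : 0 ≤ T ^ (p - 1) * |grad d (B f) e|)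
      linarith
    rw [← Finset.mul_sum] at h11
    have h12 := mul_le_mul_of_nonneg_left hrow
      (by positivity : 0 ≤ T ^ (p - 1) * (6 * p * κ * S))
    have h13 : T ^ (p - 1) * (6 * p * κ * S) * T = 6 * p * κ' * S := by
      rw [hκ', rpow_eq_mul_rpow_sub_one hp hT0]; ring
    linarith
  have h14 : ∀ b, abs (|qop d B (fun f => clampTo M (∑ j ∈ b, v j f)) e| ^ p -
      |∑ j ∈ b, z j| ^ p) ≤ δ * |∑ j ∈ b, z j| ^ p + Cb * Er b := by
    intro b
    have h15 := hper (∑ j ∈ b, z j)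
      (-∑ f, (∑ j ∈ b, v j f - clampTo M (∑ j ∈ b, v j f)) * grad d (B f) e)
    have h16 : ∑ j ∈ b, z j +
        -∑ f, (∑ j ∈ b, v j f - clampTo M (∑ j ∈ b, v j f)) * grad d (B f) e =
        qop d B (fun f => clampTo M (∑ j ∈ b, v j f)) e := by
      simp only [hz]
      rw [← qop_sum, qop, qop, ← sub_eq_add_neg, ← Finset.sum_sub_distrib]
      exact Finset.sum_congr rfl fun f _ => by ring
    rwa [h16, abs_neg] at h15
  have h17 : ex w A (fun b => |qop d B (fun f => clampTo M (∑ j ∈ b, v j f)) e| ^ p) ≤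
      0 + (1 + δ) * EZ + Cb * ex w A Er := by
    rw [hEZ, ← ex_affine2]
    refine ex_mono hw0 hw1 fun b _ => ?_
    have := (abs_le.1 (h14 b)).2
    linarith
  have h18 : 0 + (1 - δ) * EZ + (-Cb) * ex w A Er ≤
      ex w A (fun b => |qop d B (fun f => clampTo M (∑ j ∈ b, v j f)) e| ^ p) := by
    rw [hEZ, ← ex_affine2]
    refine ex_mono hw0 hw1 fun b _ => ?_
    have := (abs_le.1 (h14 b)).1
    linarith
  have h19 := mul_le_mul_of_nonneg_left h9 hCb
  have h20 := mul_le_mul_of_nonneg_left hEZ1 hδ0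
  rw [abs_le] at h1 h5 ⊢
  constructor <;> nlinarith [h1.1, h1.2, h5.1, h5.2]

end

/-- Choice of the window width. -/
theorem exists_width {p γ K η G κ : ℝ} (hp : 1 < p) (hγ : 0 < γ) (hK : 0 < K) (hη : 0 < η)
    (hG : 0 < G) (hκ : 0 < κ) :
    ∃ C : ℝ, 0 < C ∧ ∀ L : ℝ, 1 ≤ L → ∃ Δ : ℕ, 1 ≤ Δ ∧
      4 * (Δ : ℝ) / (Δ : ℝ) ^ p * (K * L ^ (γ * p)) ≤ η * Δ ∧
      (5 * L) ^ p * (G * ((1 / 2 : ℝ) ^ Δ) ^ (p - 1)) ≤ κ ∧
      2 ^ (4 * Δ) * (5 * L) ≤ Real.exp (C * L ^ γ) := by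
  have hp0 : 0 < p := by linarith
  have hl2 : 0 < Real.log 2 := Real.log_pos one_lt_two
  have hl5 : 0 < Real.log 5 := Real.log_pos (by norm_num)
  set c₃ := p * Real.log 5 + p / γ + |Real.log (G / κ)| with hc₃
  set C₂ := 1 + 4 * K / η + c₃ / ((p - 1) * Real.log 2) with hC₂
  have hc₃0 : 0 ≤ c₃ := by positivity
  have hpl : 0 < (p - 1) * Real.log 2 := mul_pos (by linarith) hl2
  have ht1 : 0 ≤ 4 * K / η := by positivity
  have ht2 : 0 ≤ c₃ / ((p - 1) * Real.log 2) := by positivity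
  have hC₂1 : 1 ≤ C₂ := by linarith
  refine ⟨Real.log 5 + 1 / γ + 4 * (C₂ + 1), by positivity, fun L hL => ?_⟩
  have hL0 : 0 < L := by linarith
  set x := L ^ γ with hx
  have hx1 : 1 ≤ x := Real.one_le_rpow hL hγ.le
  have hlog : Real.log L ≤ x / γ := by
    rw [le_div_iff₀ hγ, mul_comm, ← Real.log_rpow hL0]
    linarith [Real.log_le_sub_one_of_pos (show 0 < x by linarith)]
  have hΔ1 : C₂ * x ≤ (⌈C₂ * x⌉₊ : ℝ) := Nat.le_ceil _
  have hΔ2 : (⌈C₂ * x⌉₊ : ℝ) ≤ (C₂ + 1) * x := by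
    have := (Nat.ceil_lt_add_one (show 0 ≤ C₂ * x by positivity)).le
    linarith
  have hCx : 1 ≤ C₂ * x := one_le_mul_of_one_le_of_one_le hC₂1 hx1
  set Δ := ⌈C₂ * x⌉₊ with hΔ
  have hΔ3 : (1 : ℝ) ≤ Δ := hCx.trans hΔ1
  refine ⟨Δ, by exact_mod_cast hΔ3, ?_, ?_, ?_⟩
  · have h1 : C₂ * L ^ (γ * p) ≤ (Δ : ℝ) ^ p := by
      refine le_trans ?_ (Real.rpow_le_rpow (by positivity) hΔ1 hp0.le)
      rw [Real.mul_rpow (by positivity) (by positivity), hx, ← Real.rpow_mul hL0.le]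
      refine mul_le_mul_of_nonneg_right ?_ (by positivity)
      have := Real.rpow_le_rpow_of_exponent_le hC₂1 hp.le
      rwa [Real.rpow_one] at this
    have h2 : 4 * K ≤ η * C₂ := by
      have : 4 * K / η ≤ C₂ := by linarith
      rw [div_le_iff₀ hη] at this; linarith
    rw [div_mul_eq_mul_div, div_le_iff₀ (by positivity)]
    have h3 : 0 ≤ L ^ (γ * p) := by positivity
    have h4 : 4 * K * L ^ (γ * p) ≤ η * (Δ : ℝ) ^ p := by
      nlinarith [mul_le_mul_of_nonneg_right h2 h3, mul_le_mul_of_nonneg_left h1 hη.le]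
    nlinarith [mul_le_mul_of_nonneg_left h4 (by linarith : (0 : ℝ) ≤ Δ)]
  · rw [← Real.log_le_log_iff (by positivity) hκ, Real.log_mul (by positivity) (by positivity),
      Real.log_mul (by positivity) (by positivity), Real.log_rpow (by positivity),
      Real.log_rpow (by positivity), Real.log_mul (by norm_num) hL0.ne', Real.log_pow,
      one_div, Real.log_inv]
    have h1 : Real.log G - Real.log κ ≤ |Real.log (G / κ)| := by
      rw [← Real.log_div hG.ne' hκ.ne']; exact le_abs_self _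
    have h2 : c₃ * x ≤ (p - 1) * Real.log 2 * Δ := by
      have h3 : c₃ / ((p - 1) * Real.log 2) ≤ C₂ := by linarith
      rw [div_le_iff₀ hpl] at h3
      nlinarith [mul_le_mul_of_nonneg_left hΔ1 hpl.le,
        mul_le_mul_of_nonneg_right h3 (by linarith : 0 ≤ x)]
    have h4 : p * Real.log L ≤ p / γ * x := by
      have := mul_le_mul_of_nonneg_left hlog hp0.le
      rw [div_mul_eq_mul_div, mul_div_assoc]; exact this
    have h5 : p * Real.log 5 ≤ p * Real.log 5 * x := le_mul_of_one_le_right (by positivity) hx1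
    have h6 : |Real.log (G / κ)| ≤ |Real.log (G / κ)| * x :=
      le_mul_of_one_le_right (by positivity) hx1
    rw [hc₃] at h2
    nlinarith
  · rw [← Real.log_le_iff_le_exp (by positivity), Real.log_mul (by positivity) (by positivity),
      Real.log_pow, Real.log_mul (by norm_num) hL0.ne']
    have h1 : Real.log 2 ≤ 1 := by
      linarith [Real.log_le_sub_one_of_pos (show (0 : ℝ) < 2 by norm_num)]
    have h5 : Real.log 5 ≤ Real.log 5 * x := le_mul_of_one_le_right (by positivity) hx1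
    have h2 : (Δ : ℝ) * Real.log 2 ≤ (C₂ + 1) * x := by
      nlinarith [mul_le_mul_of_nonneg_left h1 (by linarith : (0 : ℝ) ≤ Δ)]
    have h3 : x / γ = 1 / γ * x := by ring
    push_cast
    nlinarith

end Crest.Agent.R232
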