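import Mathlib

set_option autoImplicit false

namespace Crest.Agent.R232

open Finset

/-- Tangent line inequality for `t ^ p`. -/
theorem rpow_sub_le {p : ℝ} (hp : 1 ≤ p) {x y : ℝ} (hx : 0 ≤ x) (hy : 0 ≤ y) :
    x ^ p - y ^ p ≤ p * x ^ (p - 1) * (x - y) := by
  have hp0 : 0 < p := by linarith
  rcases hx.eq_or_lt with rfl | hx'
  · rw [Real.zero_rpow hp0.ne']
    rcases hp.eq_or_lt with rfl | hp'
    · simp
    · rw [Real.zero_rpow (by linarith : p - 1 ≠ 0)]
      have := Real.rpow_nonneg hy p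
      linarith
  · have h1 := one_add_mul_self_le_rpow_one_add (s := y / x - 1)
      (by have : 0 ≤ y / x := by positivity
          linarith) hp
    rw [show 1 + (y / x - 1) = y / x by ring, Real.div_rpow hy hx,
      le_div_iff₀ (Real.rpow_pos_of_pos hx' p)] at h1
    have h2 : x ^ p = x ^ (p - 1) * x := by
      rw [Real.rpow_sub_one hx'.ne']; field_simp
    have h3 : (1 + p * (y / x - 1)) * x ^ p = x ^ p - p * x ^ (p - 1) * (x - y) := by
      conv_lhs => rw [add_mul, one_mul, h2]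
      rw [← h2]
      have : p * (y / x - 1) * x ^ p = -(p * x ^ (p - 1) * (x - y)) := by
        rw [h2]; field_simp; ring
      rw [this]; ring
    linarith

theorem abs_rpow_sub_le {p : ℝ} (hp : 1 ≤ p) {x y M : ℝ} (hx : 0 ≤ x) (hy : 0 ≤ y)
    (hxM : x ≤ M) (hyM : y ≤ M) : |x ^ p - y ^ p| ≤ p * M ^ (p - 1) * |x - y| := by
  have hp0 : 0 ≤ p := by linarith
  have h1 := rpow_sub_le hp hx hy
  have h2 := rpow_sub_le hp hy hx
  have h3 : x ^ (p - 1) ≤ M ^ (p - 1) := Real.rpow_le_rpow hx hxM (by linarith)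
  have h4 : y ^ (p - 1) ≤ M ^ (p - 1) := Real.rpow_le_rpow hy hyM (by linarith)
  have h5 := Real.rpow_nonneg hx (p - 1)
  have h6 := Real.rpow_nonneg hy (p - 1)
  rw [abs_le]
  constructor
  · have : p * y ^ (p - 1) * (y - x) ≤ p * M ^ (p - 1) * |x - y| := by
      refine le_trans (mul_le_mul_of_nonneg_left (show y - x ≤ |x - y| by
        rw [abs_sub_comm]; exact le_abs_self _) (by positivity)) ?_
      exact mul_le_mul_of_nonneg_right (mul_le_mul_of_nonneg_left h4 hp0) (abs_nonneg _)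
    linarith
  · refine h1.trans (le_trans (mul_le_mul_of_nonneg_left (le_abs_self (x - y))
      (by positivity)) ?_)
    exact mul_le_mul_of_nonneg_right (mul_le_mul_of_nonneg_left h3 hp0) (abs_nonneg _)

theorem abs_add_rpow_sub_le {p : ℝ} (hp : 1 ≤ p) (y z : ℝ) {M : ℝ} (hM : |y| + |z| ≤ M) :
    abs (|y + z| ^ p - |y| ^ p) ≤ p * M ^ (p - 1) * |z| := by
  have h1 := abs_rpow_sub_le hp (abs_nonneg (y + z)) (abs_nonneg y)
    ((abs_add_le y z).trans hM) (le_trans (by linarith [abs_nonneg z]) hM)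
  have h2 : abs (|y + z| - |y|) ≤ |z| := by
    have := abs_abs_sub_abs_le_abs_sub (y + z) y
    simpa using this
  have hM0 : 0 ≤ M := le_trans (by positivity) hM
  exact h1.trans (mul_le_mul_of_nonneg_left h2 (by positivity))

theorem rpow_sub_one_le {p : ℝ} (hp : 1 ≤ p) {t : ℝ} (ht : 0 ≤ t) : t ^ (p - 1) ≤ 1 + t ^ p := by
  rcases le_total t 1 with h | h
  · have := Real.rpow_le_one ht h (show 0 ≤ p - 1 by linarith)
    linarith [Real.rpow_nonneg ht p]
  · have := Real.rpow_le_rpow_of_exponent_le h (show p - 1 ≤ p by linarith)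
    linarith

theorem rpow_eq_mul_rpow_sub_one {p : ℝ} (hp : 1 < p) {t : ℝ} (ht : 0 ≤ t) :
    t ^ p = t * t ^ (p - 1) := by
  rcases ht.eq_or_lt with rfl | h
  · rw [Real.zero_rpow (by linarith), zero_mul]
  · rw [Real.rpow_sub_one h.ne']; field_simp

/-- Almost additivity of `|·| ^ p`. -/
theorem exists_almost_add {p : ℝ} (hp : 1 < p) {δ : ℝ} (hδ : 0 < δ) :
    ∃ C : ℝ, 0 < C ∧ ∀ y z : ℝ,
      abs (|y + z| ^ p - |y| ^ p - |z| ^ p) ≤ δ * |z| ^ p + C * |z| * (1 + |y| ^ p) := by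
  have hp0 : 0 < p := by linarith
  set c : ℝ := min 1 (δ / (p * 2 ^ (p - 1) + 1)) with hc
  have hc0 : 0 < c := lt_min one_pos (by positivity)
  have hc1 : c ≤ 1 := min_le_left _ _
  have hc2 : c * (p * 2 ^ (p - 1) + 1) ≤ δ := by
    rw [← le_div_iff₀ (by positivity)]; exact min_le_right _ _
  refine ⟨p * (1 + 1 / c) ^ (p - 1) + (1 / c) ^ (p - 1), by positivity, fun y z => ?_⟩
  have hy := abs_nonneg y
  have hz := abs_nonneg z
  have hyp := Real.rpow_nonneg hy p
  have hzp := Real.rpow_nonneg hz p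
  rcases le_total |y| (c * |z|) with h | h
  · have h1 := abs_add_rpow_sub_le hp.le z y (M := 2 * |z|) (by nlinarith)
    rw [add_comm z y, Real.mul_rpow zero_le_two hz] at h1
    have h2 : |y| ^ p ≤ c * |z| ^ p := by
      calc |y| ^ p ≤ (c * |z|) ^ p := Real.rpow_le_rpow hy h hp0.le
        _ = c ^ p * |z| ^ p := Real.mul_rpow hc0.le hz
        _ ≤ c * |z| ^ p := by
          refine mul_le_mul_of_nonneg_right ?_ hzp
          have := Real.rpow_le_rpow_of_exponent_ge hc0 hc1 hp.le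
          rwa [Real.rpow_one] at this
    have h3 : p * (2 ^ (p - 1) * |z| ^ (p - 1)) * |y| ≤ c * (p * 2 ^ (p - 1)) * |z| ^ p := by
      rw [rpow_eq_mul_rpow_sub_one hp hz]
      have : 0 ≤ p * (2 ^ (p - 1) * |z| ^ (p - 1)) := by positivity
      nlinarith [mul_le_mul_of_nonneg_left h this]
    have h4 : 0 ≤ (p * (1 + 1 / c) ^ (p - 1) + (1 / c) ^ (p - 1)) * |z| * (1 + |y| ^ p) := by
      positivity
    have h5 := mul_le_mul_of_nonneg_right hc2 hzp
    rw [abs_le] at h1 ⊢
    constructor <;> nlinarith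
  · have hz' : |z| ≤ 1 / c * |y| := by
      rw [one_div, ← div_eq_inv_mul, le_div_iff₀ hc0]; linarith
    have h1 := abs_add_rpow_sub_le hp.le y z (M := (1 + 1 / c) * |y|) (by nlinarith)
    rw [Real.mul_rpow (by positivity) hy] at h1
    have h2 : |z| ^ p ≤ |z| * ((1 / c) ^ (p - 1) * |y| ^ (p - 1)) := by
      rw [rpow_eq_mul_rpow_sub_one hp hz, ← Real.mul_rpow (by positivity) hy]
      exact mul_le_mul_of_nonneg_left (Real.rpow_le_rpow hz hz' (by linarith)) hz
    have h3 := rpow_sub_one_le hp.le hy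
    have h4 : (p * (1 + 1 / c) ^ (p - 1) + (1 / c) ^ (p - 1)) * |z| * |y| ^ (p - 1) ≤
        (p * (1 + 1 / c) ^ (p - 1) + (1 / c) ^ (p - 1)) * |z| * (1 + |y| ^ p) :=
      mul_le_mul_of_nonneg_left h3 (by positivity)
    have h5 : 0 ≤ δ * |z| ^ p := by positivity
    rw [abs_le] at h1 ⊢
    constructor <;> nlinarith

/-- Perturbation bound for `|·| ^ p`. -/
theorem exists_perturb {p : ℝ} (hp : 1 < p) {δ : ℝ} (hδ : 0 < δ) :
    ∃ C : ℝ, 0 < C ∧ ∀ a b : ℝ, abs (|a + b| ^ p - |a| ^ p) ≤ δ * |a| ^ p + C * |b| ^ p := by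
  have hp0 : 0 < p := by linarith
  set c : ℝ := min 1 (δ / (p * 2 ^ (p - 1))) with hc
  have hc0 : 0 < c := lt_min one_pos (by positivity)
  have hc1 : c ≤ 1 := min_le_left _ _
  have hc2 : c * (p * 2 ^ (p - 1)) ≤ δ := by
    rw [← le_div_iff₀ (by positivity)]; exact min_le_right _ _
  refine ⟨p * (1 + 1 / c) ^ (p - 1), by positivity, fun a b => ?_⟩
  have ha := abs_nonneg a
  have hb := abs_nonneg b
  have hap := Real.rpow_nonneg ha p
  have hbp := Real.rpow_nonneg hb p
  rcases le_total |b| (c * |a|) with h | h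
  · have h1 := abs_add_rpow_sub_le hp.le a b (M := 2 * |a|) (by nlinarith)
    rw [Real.mul_rpow zero_le_two ha] at h1
    have h3 : p * (2 ^ (p - 1) * |a| ^ (p - 1)) * |b| ≤ c * (p * 2 ^ (p - 1)) * |a| ^ p := by
      rw [rpow_eq_mul_rpow_sub_one hp ha]
      have : 0 ≤ p * (2 ^ (p - 1) * |a| ^ (p - 1)) := by positivity
      nlinarith [mul_le_mul_of_nonneg_left h this]
    have h5 := mul_le_mul_of_nonneg_right hc2 hap
    have h4 : 0 ≤ p * (1 + 1 / c) ^ (p - 1) * |b| ^ p := by positivity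
    linarith
  · have ha' : |a| ≤ 1 / c * |b| := by
      rw [one_div, ← div_eq_inv_mul, le_div_iff₀ hc0]; linarith
    have h1 := abs_add_rpow_sub_le hp.le a b (M := (1 + 1 / c) * |b|) (by nlinarith)
    rw [Real.mul_rpow (by positivity) hb] at h1
    rw [rpow_eq_mul_rpow_sub_one hp hb]
    have h5 : 0 ≤ δ * |a| ^ p := by positivity
    nlinarith

/-- Jensen's inequality for a signed combination with bounded total weight. -/
theorem abs_sum_rpow_le {ι : Type*} (s : Finset ι) {p : ℝ} (hp : 1 ≤ p) (q b : ι → ℝ) {T : ℝ}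
    (hT : ∑ i ∈ s, |q i| ≤ T) :
    |∑ i ∈ s, b i * q i| ^ p ≤ T ^ (p - 1) * ∑ i ∈ s, |q i| * |b i| ^ p := by
  have hp0 : 0 < p := by linarith
  have h1 : |∑ i ∈ s, b i * q i| ≤ ∑ i ∈ s, |q i| * |b i| :=
    (Finset.abs_sum_le_sum_abs _ _).trans (le_of_eq (Finset.sum_congr rfl fun i _ => by
      rw [abs_mul, mul_comm]))
  have h2 := Real.inner_le_weight_mul_Lp_of_nonneg s hp (fun i => |q i|) (fun i => |b i|)
    (fun i => abs_nonneg _) (fun i => abs_nonneg _)
  have hW : 0 ≤ ∑ i ∈ s, |q i| := Finset.sum_nonneg fun i _ => abs_nonneg _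
  have hS : 0 ≤ ∑ i ∈ s, |q i| * |b i| ^ p := Finset.sum_nonneg fun i _ => by positivity
  calc |∑ i ∈ s, b i * q i| ^ p
      ≤ ((∑ i ∈ s, |q i|) ^ (1 - p⁻¹) * (∑ i ∈ s, |q i| * |b i| ^ p) ^ p⁻¹) ^ p :=
        Real.rpow_le_rpow (abs_nonneg _) (h1.trans h2) hp0.le
    _ = (∑ i ∈ s, |q i|) ^ (p - 1) * ∑ i ∈ s, |q i| * |b i| ^ p := by
        rw [Real.mul_rpow (by positivity) (by positivity), ← Real.rpow_mul hW,
          Real.rpow_inv_rpow hS hp0.ne']
        congr 2
        field_simp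
    _ ≤ _ := mul_le_mul_of_nonneg_right (Real.rpow_le_rpow hW hT (by linarith)) hS

/-- Clamp to `[-M, M]`. -/
noncomputable def clampTo (M t : ℝ) : ℝ := max (-M) (min M t)

theorem abs_clampTo_le {M : ℝ} (hM : 0 ≤ M) (t : ℝ) : |clampTo M t| ≤ M := by
  rw [abs_le, clampTo]
  exact ⟨le_max_left _ _, max_le (by linarith) (min_le_left _ _)⟩

theorem abs_sub_clampTo {M : ℝ} (hM : 0 ≤ M) (t : ℝ) : |t - clampTo M t| = max (|t| - M) 0 := by
  unfold clampTo
  rcases le_total t 0 with h | h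
  · rw [abs_of_nonpos h, min_eq_right (by linarith)]
    rcases le_total t (-M) with h' | h'
    · rw [max_eq_left h', max_eq_left (by linarith), abs_of_nonpos (by linarith)]; ring
    · rw [max_eq_right h', max_eq_right (by linarith)]; simp
  · rw [abs_of_nonneg h]
    rcases le_total t M with h' | h'
    · rw [min_eq_right h', max_eq_right (by linarith), max_eq_right (by linarith)]; simp
    · rw [min_eq_left h', max_eq_right (by linarith), max_eq_left (by linarith),
        abs_of_nonneg (by linarith)]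

theorem clamp_step {p : ℝ} (hp : 1 ≤ p) {M : ℝ} (hM : 0 ≤ M) (y v : ℝ) (hv : |v| ≤ M) :
    |y + v - clampTo M (y + v)| ^ p ≤ |y - clampTo M y| ^ p + p * |v| * (1 + |y| ^ p) := by
  rw [abs_sub_clampTo hM, abs_sub_clampTo hM]
  have h1 := rpow_sub_le hp (le_max_right (|y + v| - M) 0) (le_max_right (|y| - M) 0)
  have h2 : max (|y + v| - M) 0 ≤ |y| :=
    max_le (by linarith [abs_add_le y v]) (abs_nonneg _)
  have h3 : max (|y + v| - M) 0 - max (|y| - M) 0 ≤ |v| := by
    have : max (|y + v| - M) 0 ≤ max (|y| - M) 0 + |v| :=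
      max_le (by linarith [abs_add_le y v, le_max_left (|y| - M) 0])
        (by linarith [abs_nonneg v, le_max_right (|y| - M) 0])
    linarith
  have h4 : max (|y + v| - M) 0 ^ (p - 1) ≤ 1 + |y| ^ p :=
    (Real.rpow_le_rpow (le_max_right _ _) h2 (by linarith)).trans
      (rpow_sub_one_le hp (abs_nonneg y))
  have h5 : 0 ≤ max (|y + v| - M) 0 ^ (p - 1) := Real.rpow_nonneg (le_max_right _ _) _
  have h6 : p * max (|y + v| - M) 0 ^ (p - 1) * (max (|y + v| - M) 0 - max (|y| - M) 0) ≤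
      p * max (|y + v| - M) 0 ^ (p - 1) * |v| :=
    mul_le_mul_of_nonneg_left h3 (by positivity)
  have h7 : p * |v| * max (|y + v| - M) 0 ^ (p - 1) ≤ p * |v| * (1 + |y| ^ p) :=
    mul_le_mul_of_nonneg_left h4 (by positivity)
  nlinarith

/-- A sequence dominated by a decreasing and by an increasing geometric sequence. -/
theorem sum_le_of_two_geom {θ Λ A B G : ℝ} (hθ0 : 0 < θ) (hθ1 : θ < 1) (hΛ : 1 < Λ) (hA : 0 ≤ A)
    (hB : 0 ≤ B) (hG : 0 ≤ G) (e : ℕ → ℝ) (N : ℕ) (h1 : ∀ i, e i ≤ A * θ ^ i)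
    (h2 : ∀ i, e i ≤ B * Λ ^ i) (h3 : ∀ i, A * θ ^ i ≤ G ∨ B * Λ ^ i ≤ G) :
    ∑ i ∈ range N, e i ≤ (1 / (1 - θ) + Λ / (Λ - 1)) * G := by
  classical
  have key : ∀ j, j ≤ N → (j < N → A * θ ^ j ≤ G) → (∀ i, i < j → B * Λ ^ i ≤ G) →
      ∑ i ∈ range N, e i ≤ (1 / (1 - θ) + Λ / (Λ - 1)) * G := by
    intro j hj ha hb
    rw [← Finset.sum_range_add_sum_Ico _ hj]
    have t1 : ∑ i ∈ range j, e i ≤ Λ / (Λ - 1) * G := by
      rcases Nat.eq_zero_or_pos j with rfl | hj0
      · simp only [range_zero, sum_empty]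
        have : 0 < Λ - 1 := by linarith
        positivity
      · obtain ⟨k, rfl⟩ : ∃ k, j = k + 1 := ⟨j - 1, by omega⟩
        have hk := hb k (by omega)
        refine (Finset.sum_le_sum fun i _ => h2 i).trans ?_
        rw [← Finset.mul_sum, geom_sum_eq hΛ.ne', ← mul_div_assoc, div_mul_eq_mul_div]
        refine div_le_div_of_nonneg_right ?_ (by linarith)
        rw [pow_succ]
        nlinarith
    have t2 : ∑ i ∈ Ico j N, e i ≤ 1 / (1 - θ) * G := by
      rcases hj.eq_or_lt with rfl | hj'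
      · simp only [Ico_self, sum_empty]
        have : 0 < 1 - θ := by linarith
        positivity
      · refine (Finset.sum_le_sum fun i _ => h1 i).trans ?_
        rw [← Finset.mul_sum]
        refine (mul_le_mul_of_nonneg_left (geom_sum_Ico_le_of_lt_one hθ0.le hθ1) hA).trans ?_
        rw [← mul_div_assoc, div_mul_eq_mul_div, one_mul]
        exact div_le_div_of_nonneg_right (ha hj') (by linarith)
    linarith
  by_cases hex : ∃ j, A * θ ^ j ≤ G
  · have hj := Nat.find_spec hex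
    have hlt : ∀ i, i < Nat.find hex → B * Λ ^ i ≤ G := fun i hi =>
      (h3 i).resolve_left (Nat.find_min hex hi)
    rcases le_total (Nat.find hex) N with h | h
    · exact key _ h (fun _ => hj) hlt
    · exact key N le_rfl (fun h => absurd h (lt_irrefl _)) fun i hi => hlt i (by omega)
  · push Not at hex
    exact key N le_rfl (fun h => absurd h (lt_irrefl _)) fun i _ =>
      (h3 i).resolve_left (not_le.2 (hex i))

end Crest.Agent.R232
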