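import Crest.Agent.R232.Walk

set_option autoImplicit false

namespace Crest.Agent.R232

open Finset Filter Topology

variable {X : Type*} [Fintype X] [DecidableEq X]

/-- Normalised gradient of `h` along the ordered pair `e`. -/
noncomputable def grad (d : X × X → ℝ) (h : X → ℝ) (e : X × X) : ℝ := (h e.1 - h e.2) / d e

/-- Vertex weights attached to edge weights. -/
noncomputable def vw (ρ : X × X → ℝ) (x : X) : ℝ := (∑ y, ρ (x, y) + ∑ y, ρ (y, x)) / 2

/-- Symmetric conductances attached to edge weights and lengths. -/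
noncomputable def cond (d ρ : X × X → ℝ) (x y : X) : ℝ :=
  ρ (x, y) / d (x, y) ^ 2 + ρ (y, x) / d (y, x) ^ 2

omit [DecidableEq X] in
theorem sum_vw_mul (ρ : X × X → ℝ) (h : X → ℝ) :
    ∑ x, vw ρ x * h x = ∑ e : X × X, ρ e * ((h e.1 + h e.2) / 2) := by
  rw [Fintype.sum_prod_type]
  have h1 : ∑ x, vw ρ x * h x =
      ∑ x, ∑ y, ρ (x, y) * (h x / 2) + ∑ x, ∑ y, ρ (y, x) * (h x / 2) := by
    rw [← Finset.sum_add_distrib]
    refine Finset.sum_congr rfl fun x _ => ?_
    rw [← Finset.sum_mul, ← Finset.sum_mul, vw]; ring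
  rw [h1, Finset.sum_comm (f := fun x y => ρ (y, x) * (h x / 2)), ← Finset.sum_add_distrib]
  refine Finset.sum_congr rfl fun x _ => ?_
  rw [← Finset.sum_add_distrib]
  exact Finset.sum_congr rfl fun y _ => by ring

omit [DecidableEq X] in
theorem sum_cond_mul (d ρ : X × X → ℝ) (F : X → X → ℝ) (hF : ∀ x y, F x y = F y x) :
    ∑ x, ∑ y, cond d ρ x y * F x y = 2 * ∑ e : X × X, ρ e / d e ^ 2 * F e.1 e.2 := by
  rw [Fintype.sum_prod_type]
  have h1 : ∑ x, ∑ y, cond d ρ x y * F x y =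
      ∑ x, ∑ y, ρ (x, y) / d (x, y) ^ 2 * F x y + ∑ x, ∑ y, ρ (y, x) / d (y, x) ^ 2 * F y x := by
    rw [← Finset.sum_add_distrib]
    refine Finset.sum_congr rfl fun x _ => ?_
    rw [← Finset.sum_add_distrib]
    refine Finset.sum_congr rfl fun y _ => ?_
    rw [cond, hF y x]; ring
  rw [h1, Finset.sum_comm (f := fun x y => ρ (y, x) / d (y, x) ^ 2 * F y x)]
  ring

omit [DecidableEq X] in
theorem exists_isLazy [Nonempty X] (d ρ : X × X → ℝ) (hρ : ∀ e, 0 < ρ e) :
    ∃ τ, IsLazy (vw ρ) (cond d ρ) τ := by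
  have hm : ∀ x, 0 < vw ρ x := fun x => by
    have h1 : 0 < ∑ y, ρ (x, y) := Finset.sum_pos (fun y _ => hρ _) univ_nonempty
    have h2 : 0 < ∑ y, ρ (y, x) := Finset.sum_pos (fun y _ => hρ _) univ_nonempty
    rw [vw]; positivity
  have hC : ∀ x y, 0 ≤ cond d ρ x y := fun x y => by
    have := hρ (x, y); have := hρ (y, x)
    rw [cond]; positivity
  set s : X → ℝ := fun x => 2 * (∑ y, cond d ρ x y) / vw ρ x with hs
  have hs0 : ∀ x, 0 ≤ s x := fun x =>
    div_nonneg (mul_nonneg zero_le_two (Finset.sum_nonneg fun y _ => hC x y)) (hm x).le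
  have hS : 0 ≤ ∑ x, s x := Finset.sum_nonneg fun x _ => hs0 x
  refine ⟨1 / (∑ x, s x + 1), hm, hC, fun x y => by rw [cond, cond, add_comm], by positivity,
    fun x => ?_⟩
  have h1 : s x ≤ ∑ x, s x := Finset.single_le_sum (f := s) (fun x _ => hs0 x) (mem_univ x)
  have h2 : ∑ y, cond d ρ x y = s x * vw ρ x / 2 := by
    rw [hs]; have := (hm x).ne'; field_simp
  rw [h2, div_mul_eq_mul_div, one_mul, div_le_iff₀ (by positivity)]
  nlinarith [hm x]

/-- Normalised point mass. -/
noncomputable def delta (m : X → ℝ) (v : X) : X → ℝ := fun x => if x = v then 1 / m v else 0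

theorem sum_delta {m : X → ℝ} (hm : ∀ x, 0 < m x) (v : X) (k : X → ℝ) :
    ∑ x, m x * (delta m v x * k x) = k v := by
  rw [Finset.sum_eq_single v]
  · have := (hm v).ne'
    simp [delta]; field_simp
  · intro x _ hx; simp [delta, hx]
  · simp

/-- The function representing `grad · f`. -/
noncomputable def dip (m : X → ℝ) (d : X × X → ℝ) (f : X × X) : X → ℝ :=
  fun x => (delta m f.1 x - delta m f.2 x) / d f

theorem sum_dip {m : X → ℝ} (hm : ∀ x, 0 < m x) (d : X × X → ℝ) (f : X × X) (k : X → ℝ) :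
    ∑ x, m x * (k x * dip m d f x) = grad d k f := by
  have : ∀ x, m x * (k x * dip m d f x) =
      (m x * (delta m f.1 x * k x) - m x * (delta m f.2 x * k x)) / d f := fun x => by
    rw [dip]; ring
  simp_rw [this]
  rw [← Finset.sum_div, Finset.sum_sub_distrib, sum_delta hm, sum_delta hm, grad]

section
variable {m : X → ℝ} {C : X → X → ℝ} {τ : ℝ}

theorem pow_dip_apply (H : IsLazy m C τ) (d : X × X → ℝ) (a : ℕ) (f : X × X) (v : X) :
    (walk m C τ ^ a) (dip m d f) v = grad d ((walk m C τ ^ a) (delta m v)) f := by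
  rw [← sum_delta H.m_pos v ((walk m C τ ^ a) (dip m d f)), ← walk_pow_selfadj H,
    sum_dip H.m_pos]

theorem grad_pow_dip (H : IsLazy m C τ) (d : X × X → ℝ) (a c : ℕ) (e f : X × X) :
    grad d ((walk m C τ ^ (a + c)) (dip m d f)) e =
      ∑ v, m v * (grad d ((walk m C τ ^ c) (delta m v)) f *
        grad d ((walk m C τ ^ a) (delta m v)) e) := by
  rw [← sum_dip H.m_pos, pow_add, Module.End.mul_apply, walk_pow_selfadj H]
  refine Finset.sum_congr rfl fun v _ => ?_
  rw [pow_dip_apply H, pow_dip_apply H]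

end

omit [DecidableEq X] in
theorem sq_l1_grad_le (d ρ : X × X → ℝ) (hd : ∀ e, 0 < d e) (hρ : ∀ e, 0 < ρ e) {h : X → ℝ}
    (hh : ∀ x, 0 ≤ h x) (h1 : ∑ x, vw ρ x * h x = 1) :
    (∑ e, ρ e * |grad d h e|) ^ 2 ≤
      2 * ∑ x, ∑ y, cond d ρ x y * (√(h x) - √(h y)) ^ 2 := by
  rw [sum_cond_mul d ρ (fun x y => (√(h x) - √(h y)) ^ 2) (fun x y => by ring)]
  have e1 : ∀ e : X × X, ρ e * |grad d h e| =
      (√(ρ e) * |√(h e.1) - √(h e.2)| / d e) * (√(ρ e) * (√(h e.1) + √(h e.2))) := by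
    intro e
    have hs : h e.1 - h e.2 = (√(h e.1) - √(h e.2)) * (√(h e.1) + √(h e.2)) := by
      nlinarith [Real.mul_self_sqrt (hh e.1), Real.mul_self_sqrt (hh e.2)]
    have hp : 0 ≤ √(h e.1) + √(h e.2) := by positivity
    rw [grad, abs_div, abs_of_pos (hd e), hs, abs_mul, abs_of_nonneg hp]
    have := Real.mul_self_sqrt (hρ e).le
    have hde := (hd e).ne'
    field_simp
    rw [Real.sq_sqrt (hρ e).le]; ring
  simp_rw [e1]
  refine (Finset.sum_mul_sq_le_sq_mul_sq _ _ _).trans ?_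
  have e2 : ∑ e : X × X, (√(ρ e) * |√(h e.1) - √(h e.2)| / d e) ^ 2 =
      ∑ e : X × X, ρ e / d e ^ 2 * (√(h e.1) - √(h e.2)) ^ 2 := by
    refine Finset.sum_congr rfl fun e _ => ?_
    rw [div_pow, mul_pow, Real.sq_sqrt (hρ e).le, sq_abs]; ring
  have e3 : ∑ e : X × X, (√(ρ e) * (√(h e.1) + √(h e.2))) ^ 2 ≤ 4 := by
    rw [sum_vw_mul] at h1
    have : ∑ e : X × X, (√(ρ e) * (√(h e.1) + √(h e.2))) ^ 2 ≤
        ∑ e : X × X, 4 * (ρ e * ((h e.1 + h e.2) / 2)) := by
      refine Finset.sum_le_sum fun e _ => ?_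
      rw [mul_pow, Real.sq_sqrt (hρ e).le]
      have : (√(h e.1) + √(h e.2)) ^ 2 ≤ 2 * (h e.1 + h e.2) := by
        nlinarith [Real.mul_self_sqrt (hh e.1), Real.mul_self_sqrt (hh e.2),
          sq_nonneg (√(h e.1) - √(h e.2))]
      nlinarith [hρ e]
    rw [← Finset.mul_sum, h1] at this
    linarith
  rw [e2]
  have e4 : 0 ≤ ∑ e : X × X, ρ e / d e ^ 2 * (√(h e.1) - √(h e.2)) ^ 2 :=
    Finset.sum_nonneg fun e _ => by have := hρ e; positivity
  nlinarith

theorem ent_delta {m : X → ℝ} (hm : ∀ x, 0 < m x) (v : X) :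
    ent m (delta m v) = -Real.log (m v) := by
  have := sum_delta hm v (fun x => Real.log (delta m v x))
  rw [ent, this]
  simp [delta]

omit [DecidableEq X] in
theorem sum_neg_log_le [Nonempty X] {m : X → ℝ} (hm : ∀ x, 0 < m x) (hm1 : ∑ x, m x = 1) :
    ∑ v, m v * (-Real.log (m v)) ≤ Real.log (Fintype.card X) := by
  have hn : (0 : ℝ) < Fintype.card X := by exact_mod_cast Fintype.card_pos
  have : ∀ v, m v * (-Real.log (m v)) ≤
      m v * Real.log (Fintype.card X) + (1 / Fintype.card X - m v) := by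
    intro v
    have h1 := Real.log_le_sub_one_of_pos (x := 1 / (Fintype.card X * m v))
      (by have := hm v; positivity)
    rw [Real.log_div one_ne_zero (by have := hm v; positivity), Real.log_one,
      Real.log_mul hn.ne' (hm v).ne'] at h1
    have h2 := mul_le_mul_of_nonneg_left h1 (hm v).le
    have h3 : m v * (1 / (Fintype.card X * m v) - 1) = 1 / Fintype.card X - m v := by
      have := (hm v).ne'; field_simp
    rw [h3] at h2
    linarith
  refine (Finset.sum_le_sum fun v _ => this v).trans (le_of_eq ?_)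
  rw [Finset.sum_add_distrib, ← Finset.sum_mul, Finset.sum_sub_distrib, hm1, Finset.sum_const,
    card_univ, nsmul_eq_mul]
  field_simp
  ring

theorem sum_range_two_mul (F : ℕ → ℝ) (N : ℕ) :
    ∑ k ∈ range (2 * N), F k = ∑ a ∈ range N, (F (2 * a) + F (2 * a + 1)) := by
  induction N with
  | zero => simp
  | succ N ih =>
    rw [show 2 * (N + 1) = 2 * N + 1 + 1 by ring, Finset.sum_range_succ, Finset.sum_range_succ, ih,
      Finset.sum_range_succ]
    ring

/-- Localisation of electrical flows, finite-time form. -/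
theorem local_bound [Nonempty X] (d ρ : X × X → ℝ) (hd : ∀ e, 0 < d e) (hρ : ∀ e, 0 < ρ e)
    (hρ1 : ∑ e, ρ e = 1) {τ : ℝ} (H : IsLazy (vw ρ) (cond d ρ) τ) (N : ℕ) :
    ∑ k ∈ range N, τ * ∑ e, ∑ f, ρ e * ρ f *
      |grad d ((walk (vw ρ) (cond d ρ) τ ^ k) (dip (vw ρ) d f)) e| ≤
      8 * Real.log (Fintype.card X) := by
  set A := walk (vw ρ) (cond d ρ) τ with hA
  set m := vw ρ with hm
  have hτ := H.τ_pos
  have hm1 : ∑ x, m x = 1 := by
    have := sum_vw_mul ρ (fun _ => 1)
    simpa [hρ1] using this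
  set J : ℕ → X → ℝ := fun a v => ∑ e, ρ e * |grad d ((A ^ a) (delta m v)) e| with hJ
  have hδ0 : ∀ v x, 0 ≤ delta m v x := fun v x => by
    have := H.m_pos v
    simp only [delta]; split_ifs <;> positivity
  have hδ1 : ∀ v, ∑ x, m x * delta m v x = 1 := fun v => by
    simpa using sum_delta H.m_pos v (fun _ => 1)
  have hJ2 : ∀ M v, ∑ a ∈ range M, τ * J a v ^ 2 ≤ 4 * (-Real.log (m v)) := by
    intro M v
    have h1 := sum_energy_le H hm1 (hδ0 v) (hδ1 v) M
    rw [ent_delta H.m_pos] at h1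
    refine le_trans ?_ (mul_le_mul_of_nonneg_left h1 (by norm_num : (0 : ℝ) ≤ 4))
    rw [Finset.mul_sum]
    refine Finset.sum_le_sum fun a _ => ?_
    have h2 := sq_l1_grad_le d ρ hd hρ (walk_pow_nonneg H (hδ0 v) a)
      (by rw [walk_pow_mass H, hδ1])
    have h3 := mul_le_mul_of_nonneg_left h2 hτ.le
    simp only [hJ]
    linarith
  have hJ3 : ∀ M, ∑ a ∈ range M, τ * ∑ v, m v * J a v ^ 2 ≤ 4 * Real.log (Fintype.card X) := by
    intro M
    have h1 : ∑ a ∈ range M, τ * ∑ v, m v * J a v ^ 2 =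
        ∑ v, m v * ∑ a ∈ range M, τ * J a v ^ 2 := by
      simp_rw [Finset.mul_sum]
      rw [Finset.sum_comm]
      exact Finset.sum_congr rfl fun v _ => Finset.sum_congr rfl fun a _ => by ring
    rw [h1]
    have h2 := sum_neg_log_le H.m_pos hm1
    have h3 : ∑ v, m v * ∑ a ∈ range M, τ * J a v ^ 2 ≤ ∑ v, m v * (4 * (-Real.log (m v))) :=
      Finset.sum_le_sum fun v _ => mul_le_mul_of_nonneg_left (hJ2 M v) (H.m_pos v).le
    have h4 : ∑ v, m v * (4 * (-Real.log (m v))) = 4 * ∑ v, m v * (-Real.log (m v)) := by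
      rw [Finset.mul_sum]; exact Finset.sum_congr rfl fun v _ => by ring
    linarith
  have hterm : ∀ a c, ∑ e, ∑ f, ρ e * ρ f * |grad d ((A ^ (a + c)) (dip m d f)) e| ≤
      (∑ v, m v * J a v ^ 2 + ∑ v, m v * J c v ^ 2) / 2 := by
    intro a c
    have h1 : ∑ e, ∑ f, ρ e * ρ f * |grad d ((A ^ (a + c)) (dip m d f)) e| ≤
        ∑ e, ∑ f, ∑ v, m v * ((ρ e * |grad d ((A ^ a) (delta m v)) e|) *
          (ρ f * |grad d ((A ^ c) (delta m v)) f|)) := by
      refine Finset.sum_le_sum fun e _ => Finset.sum_le_sum fun f _ => ?_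
      rw [hA, grad_pow_dip H]
      refine (mul_le_mul_of_nonneg_left (Finset.abs_sum_le_sum_abs _ _)
        (mul_pos (hρ e) (hρ f)).le).trans (le_of_eq ?_)
      rw [Finset.mul_sum]
      refine Finset.sum_congr rfl fun v _ => ?_
      rw [abs_mul, abs_mul, abs_of_pos (H.m_pos v)]; ring
    have h2 : ∑ e, ∑ f, ∑ v, m v * ((ρ e * |grad d ((A ^ a) (delta m v)) e|) *
          (ρ f * |grad d ((A ^ c) (delta m v)) f|)) = ∑ v, m v * (J a v * J c v) := by
      simp only [hJ]
      simp_rw [Finset.sum_mul_sum, Finset.mul_sum]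
      conv_rhs => rw [Finset.sum_comm]
      refine Finset.sum_congr rfl fun e _ => ?_
      rw [Finset.sum_comm]
    have h3 : ∑ v, m v * (J a v * J c v) ≤ ∑ v, (m v * J a v ^ 2 + m v * J c v ^ 2) / 2 := by
      refine Finset.sum_le_sum fun v _ => ?_
      nlinarith [mul_nonneg (H.m_pos v).le (sq_nonneg (J a v - J c v))]
    rw [← Finset.sum_div, Finset.sum_add_distrib] at h3
    linarith
  set F : ℕ → ℝ := fun k => τ * ∑ e, ∑ f, ρ e * ρ f * |grad d ((A ^ k) (dip m d f)) e| with hF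
  set G : ℕ → ℝ := fun a => τ * ∑ v, m v * J a v ^ 2 with hG
  have hF0 : ∀ k, 0 ≤ F k := fun k => mul_nonneg hτ.le (Finset.sum_nonneg fun e _ =>
    Finset.sum_nonneg fun f _ => by have := hρ e; have := hρ f; positivity)
  have hG0 : ∀ k, 0 ≤ G k := fun k => mul_nonneg hτ.le (Finset.sum_nonneg fun v _ =>
    by have := H.m_pos v; positivity)
  have h1 : ∑ k ∈ range N, F k ≤ ∑ k ∈ range (2 * N), F k :=
    Finset.sum_le_sum_of_subset_of_nonneg (Finset.range_mono (by omega)) fun k _ _ => hF0 k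
  rw [sum_range_two_mul] at h1
  have h2 : ∀ a, F (2 * a) + F (2 * a + 1) ≤ 3 / 2 * G a + 1 / 2 * G (a + 1) := by
    intro a
    have t1 := mul_le_mul_of_nonneg_left (hterm a a) hτ.le
    have t2 := mul_le_mul_of_nonneg_left (hterm a (a + 1)) hτ.le
    rw [show a + a = 2 * a by ring] at t1
    rw [show a + (a + 1) = 2 * a + 1 by ring] at t2
    simp only [hF, hG]
    linarith
  have h3 : ∑ a ∈ range N, (F (2 * a) + F (2 * a + 1)) ≤
      3 / 2 * ∑ a ∈ range N, G a + 1 / 2 * ∑ a ∈ range N, G (a + 1) := by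
    rw [Finset.mul_sum, Finset.mul_sum, ← Finset.sum_add_distrib]
    exact Finset.sum_le_sum fun a _ => h2 a
  have h4 : ∑ a ∈ range N, G (a + 1) ≤ ∑ a ∈ range (N + 1), G a := by
    rw [Finset.sum_range_succ']; linarith [hG0 0]
  have h5 := hJ3 N
  have h6 := hJ3 (N + 1)
  change ∑ k ∈ range N, F k ≤ _
  change ∑ a ∈ range N, G a ≤ _ at h5
  change ∑ a ∈ range (N + 1), G a ≤ _ at h6
  linarith

/-- Localisation of electrical flows: the orthogonal projection onto gradients, written through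
potentials `B f`, has `ρ`-average row sum at most `8 log n`. -/
theorem exists_localized [Nonempty X] (d ρ : X × X → ℝ) (hd : ∀ e, 0 < d e) (hρ : ∀ e, 0 < ρ e)
    (hρ1 : ∑ e, ρ e = 1) :
    ∃ B : X × X → X → ℝ,
      (∀ h f, ∑ e, ρ e * (grad d (B f) e * grad d h e) = ρ f * grad d h f) ∧
      ∑ e, ρ e * ∑ f, |grad d (B f) e| ≤ 8 * Real.log (Fintype.card X) := by
  obtain ⟨τ, H⟩ := exists_isLazy d ρ hρ
  have hb := local_bound d ρ hd hρ hρ1 H
  set A := walk (vw ρ) (cond d ρ) τ with hA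
  set m := vw ρ with hm
  have hτ := H.τ_pos
  have hm1 : ∑ x, m x = 1 := by
    have := sum_vw_mul ρ (fun _ => 1)
    simpa [hρ1] using this
  set t : ℕ → X × X → X × X → ℝ := fun k e f => grad d ((A ^ k) (dip m d f)) e with ht
  have hsum : ∀ e f, Summable fun k => t k e f := by
    intro e f
    have hc : 0 < τ * (ρ e * ρ f) := mul_pos hτ (mul_pos (hρ e) (hρ f))
    refine Summable.of_abs (summable_of_sum_range_le (fun k => abs_nonneg _)
      (c := 8 * Real.log (Fintype.card X) / (τ * (ρ e * ρ f))) fun N => ?_)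
    rw [le_div_iff₀ hc, Finset.sum_mul]
    refine le_trans (Finset.sum_le_sum fun k _ => ?_) (hb N)
    have h1 : ρ e * ρ f * |t k e f| ≤ ∑ f, ρ e * ρ f * |t k e f| :=
      Finset.single_le_sum (f := fun f => ρ e * ρ f * |t k e f|)
        (fun f _ => by have := hρ e; have := hρ f; positivity) (mem_univ f)
    have h2 : ∑ f, ρ e * ρ f * |t k e f| ≤ ∑ e, ∑ f, ρ e * ρ f * |t k e f| :=
      Finset.single_le_sum (f := fun e => ∑ f, ρ e * ρ f * |t k e f|)
        (fun e _ => Finset.sum_nonneg fun f _ => by have := hρ e; have := hρ f; positivity)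
        (mem_univ e)
    have h3 := mul_le_mul_of_nonneg_left (h1.trans h2) hτ.le
    simp only [ht] at h3 ⊢
    linarith
  obtain ⟨x₀⟩ := ‹Nonempty X›
  set B : X × X → X → ℝ := fun f x => τ * ρ f * (d (x, x₀) * ∑' k, t k (x, x₀) f) with hB
  have hdt : ∀ k x f, d (x, x₀) * t k (x, x₀) f =
      (A ^ k) (dip m d f) x - (A ^ k) (dip m d f) x₀ := by
    intro k x f
    have := (hd (x, x₀)).ne'
    simp only [ht, grad]; field_simp
  have hgB : ∀ e f, HasSum (fun k => τ * ρ f * t k e f) (grad d (B f) e) := by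
    intro e f
    have h1 := ((hsum (e.1, x₀) f).hasSum.mul_left (d (e.1, x₀))).mul_left (τ * ρ f)
    have h2 := ((hsum (e.2, x₀) f).hasSum.mul_left (d (e.2, x₀))).mul_left (τ * ρ f)
    have h3 := (h1.sub h2).div_const (d e)
    have h4 : (fun k => τ * ρ f * t k e f) = fun i => (τ * ρ f * (d (e.1, x₀) * t i (e.1, x₀) f) -
        τ * ρ f * (d (e.2, x₀) * t i (e.2, x₀) f)) / d e := by
      ext k
      rw [hdt, hdt]
      simp only [ht, grad]; ring
    rw [h4]
    exact h3
  refine ⟨B, fun h f => ?_, ?_⟩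
  · set s : ℕ → ℝ := fun k => ∑ x, m x * ((A ^ k) (dip m d f) x * h x) with hs
    have h1 : ∀ k, ∑ e, ρ e * (τ * ρ f * t k e f * grad d h e) = ρ f * (s k - s (k + 1)) := by
      intro k
      have e1 : (A ^ (k + 1)) (dip m d f) = A ((A ^ k) (dip m d f)) := by rw [pow_succ']; rfl
      have h2 := walk_form H ((A ^ k) (dip m d f)) h
      rw [sum_cond_mul d ρ (fun x y => ((A ^ k) (dip m d f) x - (A ^ k) (dip m d f) y) *
        (h x - h y)) (fun x y => by ring)] at h2
      simp only [hs]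
      rw [e1, h2]
      have h3 : ∑ e, ρ e * (τ * ρ f * t k e f * grad d h e) = ρ f * (τ * ∑ e : X × X,
          ρ e / d e ^ 2 * (((A ^ k) (dip m d f) e.1 - (A ^ k) (dip m d f) e.2) *
            (h e.1 - h e.2))) := by
        rw [Finset.mul_sum, Finset.mul_sum]
        refine Finset.sum_congr rfl fun e _ => ?_
        have := (hd e).ne'
        simp only [ht, grad]; field_simp
      rw [h3]; ring
    have h2 : HasSum (fun k => ∑ e, ρ e * (τ * ρ f * t k e f * grad d h e))
        (∑ e, ρ e * (grad d (B f) e * grad d h e)) :=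
      hasSum_sum fun e _ => ((hgB e f).mul_right (grad d h e)).mul_left (ρ e)
    have h3 := h2.tendsto_sum_nat
    have h4 : ∀ N, ∑ k ∈ range N, ∑ e, ρ e * (τ * ρ f * t k e f * grad d h e) =
        ρ f * (s 0 - s N) := by
      intro N
      simp_rw [h1]
      rw [← Finset.mul_sum, Finset.sum_range_sub']
    simp_rw [h4] at h3
    have h5 : Tendsto s atTop (𝓝 0) := by
      set hbar := ∑ x, m x * h x with hhbar
      have e1 : ∀ k, s k = ∑ x, m x * (d (x, x₀) * t k (x, x₀) f * (h x - hbar)) := by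
        intro k
        have h6 : ∑ x, m x * (A ^ k) (dip m d f) x = 0 := by
          rw [walk_pow_mass H]
          have := sum_dip H.m_pos d f (fun _ => 1)
          simpa [grad] using this
        simp_rw [hdt]
        have h7 : ∀ x, m x * (((A ^ k) (dip m d f) x - (A ^ k) (dip m d f) x₀) * (h x - hbar)) =
            m x * ((A ^ k) (dip m d f) x * h x) - hbar * (m x * (A ^ k) (dip m d f) x) -
              (A ^ k) (dip m d f) x₀ * (m x * h x) + (A ^ k) (dip m d f) x₀ * hbar * m x :=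
          fun x => by ring
        simp_rw [h7]
        rw [Finset.sum_add_distrib, Finset.sum_sub_distrib, Finset.sum_sub_distrib,
          ← Finset.mul_sum, ← Finset.mul_sum, ← Finset.mul_sum, h6, hm1, ← hhbar]
        simp only [hs]; ring
      have e2 : s = fun k => ∑ x, m x * (d (x, x₀) * t k (x, x₀) f * (h x - hbar)) := funext e1
      rw [e2]
      have : Tendsto (fun k => ∑ x, m x * (d (x, x₀) * t k (x, x₀) f * (h x - hbar))) atTop
          (𝓝 (∑ x, m x * (d (x, x₀) * 0 * (h x - hbar)))) :=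
        tendsto_finsetSum _ fun x _ =>
          ((((hsum (x, x₀) f).tendsto_atTop_zero).const_mul _).mul_const _).const_mul _
      simpa using this
    have h6 : Tendsto (fun N => ρ f * (s 0 - s N)) atTop (𝓝 (ρ f * (s 0 - 0))) :=
      (tendsto_const_nhds.sub h5).const_mul _
    rw [tendsto_nhds_unique h3 h6, sub_zero]
    congr 1
    simp only [hs, pow_zero, Module.End.one_apply]
    rw [← sum_dip H.m_pos d f h]
    exact Finset.sum_congr rfl fun x _ => by ring
  · have h1 : Tendsto (fun N => ∑ e, ρ e * ∑ f, |∑ k ∈ range N, τ * ρ f * t k e f|) atTop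
        (𝓝 (∑ e, ρ e * ∑ f, |grad d (B f) e|)) :=
      tendsto_finsetSum _ fun e _ => (tendsto_finsetSum _ fun f _ =>
        (hgB e f).tendsto_sum_nat.abs).const_mul _
    refine le_of_tendsto' h1 fun N => le_trans ?_ (hb N)
    have h2 : ∑ k ∈ range N, τ * ∑ e, ∑ f, ρ e * ρ f * |t k e f| =
        ∑ e, ρ e * ∑ f, ∑ k ∈ range N, τ * ρ f * |t k e f| := by
      simp_rw [Finset.mul_sum]
      rw [Finset.sum_comm]
      refine Finset.sum_congr rfl fun e _ => ?_
      rw [Finset.sum_comm]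
      exact Finset.sum_congr rfl fun f _ => Finset.sum_congr rfl fun k _ => by ring
    change _ ≤ ∑ k ∈ range N, τ * ∑ e, ∑ f, ρ e * ρ f * |t k e f|
    rw [h2]
    refine Finset.sum_le_sum fun e _ => mul_le_mul_of_nonneg_left
      (Finset.sum_le_sum fun f _ => ?_) (hρ e).le
    refine (Finset.abs_sum_le_sum_abs _ _).trans (le_of_eq ?_)
    refine Finset.sum_congr rfl fun k _ => ?_
    rw [abs_mul, abs_of_pos (mul_pos hτ (hρ f))]

end Crest.Agent.R232
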