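import Mathlib

set_option autoImplicit false

namespace Crest.Agent.R232

open Finset

theorem exp_le_quad {x : ℝ} (hx : |x| ≤ 1) : Real.exp x ≤ 1 + x + x ^ 2 := by
  have := Real.abs_exp_sub_one_sub_id_le hx
  have := (abs_le.1 this).2
  linarith

/-- Greedy Hoeffding sampling: a finite mean of bounded functions is approximated, simultaneously
for all functions, by an empirical mean of `N` points. -/
theorem exists_sample {W E : Type*} [Fintype E] (s : Finset W) (q : W → ℝ) (hq0 : ∀ b ∈ s, 0 ≤ q b)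
    (hq1 : ∑ b ∈ s, q b = 1) (F : E → W → ℝ) {R : ℝ} (hR : 1 ≤ R) (hF0 : ∀ e b, 0 ≤ F e b)
    (hFR : ∀ e b, F e b ≤ R) {η : ℝ} (hη0 : 0 < η) (hη1 : η ≤ 1) (N : ℕ)
    (hN : 4 * R ^ 2 * Real.log (2 * Fintype.card E) ≤ η ^ 2 * N) :
    ∃ b : Fin N → W, ∀ e, |∑ i, F e (b i) - N * ∑ b ∈ s, q b * F e b| ≤ η * N := by
  classical
  set μ : E → ℝ := fun e => ∑ b ∈ s, q b * F e b with hμ
  have hμ0 : ∀ e, 0 ≤ μ e := fun e => Finset.sum_nonneg fun b hb => mul_nonneg (hq0 b hb) (hF0 e b)
  have hμR : ∀ e, μ e ≤ R := fun e => by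
    calc μ e ≤ ∑ b ∈ s, q b * R :=
          Finset.sum_le_sum fun b hb => mul_le_mul_of_nonneg_left (hFR e b) (hq0 b hb)
      _ = R := by rw [← Finset.sum_mul, hq1, one_mul]
  set θ : ℝ := η / (2 * R ^ 2) with hθ
  have hR0 : 0 < R := by linarith
  have hθ0 : 0 < θ := by positivity
  have hθR : θ * R ≤ 1 := by
    rw [hθ, div_mul_eq_mul_div, div_le_one (by positivity)]; nlinarith
  have hdev : ∀ e b, |F e b - μ e| ≤ R := fun e b => by
    rw [abs_le]; constructor <;> linarith [hF0 e b, hFR e b, hμ0 e, hμR e]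
  have hmgf : ∀ e (σ : ℝ), |σ| = θ →
      ∑ b ∈ s, q b * Real.exp (σ * (F e b - μ e)) ≤ Real.exp (θ ^ 2 * R ^ 2) := by
    intro e σ hσ
    have h1 : ∀ b ∈ s, q b * Real.exp (σ * (F e b - μ e)) ≤
        q b * (1 + θ ^ 2 * R ^ 2) + σ * (q b * F e b) - σ * μ e * q b := by
      intro b hb
      have h2 : |σ * (F e b - μ e)| ≤ θ * R := by
        rw [abs_mul, hσ]; exact mul_le_mul_of_nonneg_left (hdev e b) hθ0.le
      have h3 := exp_le_quad (h2.trans hθR)
      have h4 : (σ * (F e b - μ e)) ^ 2 ≤ (θ * R) ^ 2 := by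
        rw [← sq_abs]; exact pow_le_pow_left₀ (abs_nonneg _) h2 2
      have h5 : Real.exp (σ * (F e b - μ e)) ≤ 1 + θ ^ 2 * R ^ 2 + σ * (F e b - μ e) := by
        nlinarith
      nlinarith [mul_le_mul_of_nonneg_left h5 (hq0 b hb)]
    refine (Finset.sum_le_sum h1).trans ?_
    rw [Finset.sum_sub_distrib, Finset.sum_add_distrib, ← Finset.sum_mul, ← Finset.mul_sum,
      ← Finset.mul_sum, hq1]
    have := Real.add_one_le_exp (θ ^ 2 * R ^ 2)
    change 1 * (1 + θ ^ 2 * R ^ 2) + σ * μ e - σ * μ e * 1 ≤ _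
    linarith
  have key : ∀ M : ℕ, ∃ b : Fin M → W,
      ∑ e, (Real.exp (θ * ∑ i, (F e (b i) - μ e)) + Real.exp (-θ * ∑ i, (F e (b i) - μ e))) ≤
        2 * Fintype.card E * Real.exp (M * (θ ^ 2 * R ^ 2)) := by
    intro M
    induction M with
    | zero =>
      refine ⟨Fin.elim0, le_of_eq ?_⟩
      simp; ring
    | succ M ih =>
      obtain ⟨b, hb⟩ := ih
      set S : E → ℝ := fun e => ∑ i, (F e (b i) - μ e) with hS
      set Φ : W → ℝ := fun c => ∑ e, (Real.exp (θ * (F e c - μ e + S e)) +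
        Real.exp (-θ * (F e c - μ e + S e))) with hΦ
      have h1 : ∑ c ∈ s, q c * Φ c ≤
          ∑ c ∈ s, q c * (2 * Fintype.card E * Real.exp ((M + 1 : ℕ) * (θ ^ 2 * R ^ 2))) := by
        rw [← Finset.sum_mul, hq1, one_mul]
        have h2 : ∑ c ∈ s, q c * Φ c = ∑ e, (Real.exp (θ * S e) *
            ∑ c ∈ s, q c * Real.exp (θ * (F e c - μ e)) + Real.exp (-θ * S e) *
            ∑ c ∈ s, q c * Real.exp (-θ * (F e c - μ e))) := by
          simp only [hΦ]
          simp_rw [Finset.mul_sum]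
          rw [Finset.sum_comm]
          refine Finset.sum_congr rfl fun e _ => ?_
          rw [← Finset.sum_add_distrib]
          refine Finset.sum_congr rfl fun c _ => ?_
          rw [mul_add θ, mul_add (-θ), Real.exp_add, Real.exp_add]; ring
        rw [h2]
        have h3 : ∀ e, Real.exp (θ * S e) *
            ∑ c ∈ s, q c * Real.exp (θ * (F e c - μ e)) + Real.exp (-θ * S e) *
            ∑ c ∈ s, q c * Real.exp (-θ * (F e c - μ e)) ≤
            (Real.exp (θ * S e) + Real.exp (-θ * S e)) * Real.exp (θ ^ 2 * R ^ 2) := by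
          intro e
          rw [add_mul]
          exact add_le_add
            (mul_le_mul_of_nonneg_left (hmgf e θ (abs_of_pos hθ0)) (Real.exp_pos _).le)
            (mul_le_mul_of_nonneg_left (hmgf e (-θ) (by rw [abs_neg, abs_of_pos hθ0]))
              (Real.exp_pos _).le)
        refine (Finset.sum_le_sum fun e _ => h3 e).trans ?_
        rw [← Finset.sum_mul]
        refine (mul_le_mul_of_nonneg_right hb (Real.exp_pos _).le).trans (le_of_eq ?_)
        rw [mul_assoc, ← Real.exp_add]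
        push_cast
        ring_nf
      have hne : ∃ c ∈ s, 0 < q c ∧
          Φ c ≤ 2 * Fintype.card E * Real.exp ((M + 1 : ℕ) * (θ ^ 2 * R ^ 2)) := by
        by_contra hcon
        push Not at hcon
        have hpos : ∃ c ∈ s, 0 < q c := by
          by_contra h0
          push Not at h0
          have : ∑ b ∈ s, q b ≤ 0 := Finset.sum_nonpos h0
          linarith
        obtain ⟨c, hc, hqc⟩ := hpos
        refine absurd h1 (not_le.2 (Finset.sum_lt_sum (fun c hc => ?_) ⟨c, hc, ?_⟩))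
        · rcases (hq0 c hc).eq_or_lt with h | h
          · rw [← h]; simp
          · exact mul_le_mul_of_nonneg_left (hcon c hc h).le h.le
        · exact mul_lt_mul_of_pos_left (hcon c hc hqc) hqc
      obtain ⟨c, -, -, hc⟩ := hne
      refine ⟨Fin.cons c b, ?_⟩
      simpa only [Fin.sum_univ_succ, Fin.cons_zero, Fin.cons_succ] using hc
  obtain ⟨b, hb⟩ := key N
  refine ⟨b, fun e => ?_⟩
  have hcard : (0 : ℝ) < Fintype.card E := by
    have : 0 < Fintype.card E := Fintype.card_pos_iff.2 ⟨e⟩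
    exact_mod_cast this
  set S := ∑ i, (F e (b i) - μ e) with hS
  have hSe : ∑ i, F e (b i) - N * μ e = S := by
    rw [hS, Finset.sum_sub_distrib, Finset.sum_const, card_univ, Fintype.card_fin, nsmul_eq_mul]
  change |∑ i, F e (b i) - N * μ e| ≤ _
  rw [hSe]
  have h1 : Real.exp (θ * S) + Real.exp (-θ * S) ≤
      2 * Fintype.card E * Real.exp (N * (θ ^ 2 * R ^ 2)) :=
    le_trans (Finset.single_le_sum (f := fun e => Real.exp (θ * ∑ i, (F e (b i) - μ e)) +
      Real.exp (-θ * ∑ i, (F e (b i) - μ e))) (fun e _ => by positivity) (mem_univ e)) hb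
  have h2 : Real.exp (θ * |S|) ≤ 2 * Fintype.card E * Real.exp (N * (θ ^ 2 * R ^ 2)) := by
    rcases abs_choice S with h | h
    · rw [h]; linarith [Real.exp_pos (-θ * S)]
    · rw [h, mul_neg, ← neg_mul]; linarith [Real.exp_pos (θ * S)]
  rw [← Real.exp_log (show 0 < 2 * (Fintype.card E : ℝ) by positivity), ← Real.exp_add,
    Real.exp_le_exp] at h2
  have h3 : Real.log (2 * Fintype.card E) ≤ θ * (η * N / 2) := by
    rw [hθ]
    have : η / (2 * R ^ 2) * (η * N / 2) = η ^ 2 * N / (4 * R ^ 2) := by field_simp; ring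
    rw [this, le_div_iff₀ (by positivity)]; linarith
  have h4 : N * (θ ^ 2 * R ^ 2) = θ * (η * N / 2) := by
    rw [hθ]; field_simp
  have h5 : θ * |S| ≤ θ * (η * N) := by linarith
  exact le_of_mul_le_mul_left h5 hθ0

end Crest.Agent.R232
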