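import Crest.Agent.R232.Flat
import Crest.Agent.R232.Sample

set_option autoImplicit false

namespace Crest.Agent.R232

open Finset

/-- A flat random function with the prescribed `p`-th moments of all gradients. -/
theorem exists_flat {p ε : ℝ} (hp1 : 1 < p) (hp2 : p ≠ 2) (hε : 0 < ε) :
    ∃ C : ℝ, 0 < C ∧ ∀ (X Ω : Type) [Fintype X] [DecidableEq X] [Nonempty X] [Fintype Ω]
      (d : X × X → ℝ) (φ : Ω → X → ℝ) (L : ℝ),
      (∀ e, 0 < d e) → (∀ e, ∑ ω, |grad d (φ ω) e| ^ p ≤ 1) →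
      1 ≤ L → 8 * Real.log (Fintype.card X) ≤ L →
      ∃ (W : Type) (s : Finset W) (q : W → ℝ) (G : W → X → ℝ) (S : ℝ),
        (∀ b ∈ s, 0 ≤ q b) ∧ ∑ b ∈ s, q b = 1 ∧ 1 ≤ S ∧
        (∀ b e, |grad d (G b) e| ≤ Real.exp (C * L ^ (|p - 2| / p))) ∧
        ∀ e, abs (∑ b ∈ s, q b * |grad d (G b) e| ^ p - S * ∑ ω, |grad d (φ ω) e| ^ p) ≤ ε * S := by
  classical
  have hp0 : 0 < p := by linarith
  set δ₀ := min 1 (ε / 20) with hδ₀
  have hδ₀0 : 0 < δ₀ := lt_min one_pos (by positivity)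
  have hδ₀1 : δ₀ ≤ 1 := min_le_left _ _
  have hδ₀2 : δ₀ ≤ ε / 20 := min_le_right _ _
  obtain ⟨Ca, hCa, hadd⟩ := exists_almost_add hp1 hδ₀0
  obtain ⟨Cb, hCb, hper⟩ := exists_perturb hp1 hδ₀0
  obtain ⟨K, hK, hcomm⟩ := comm_bound hp1 hp2
  have hθ := half_rpow_lt_one (show 0 < p - 1 by linarith)
  set G₁ : ℝ := 2 ^ (p - 1) / (1 - (1 / 2 : ℝ) ^ (p - 1)) with hG₁
  have hG₁0 : 0 < G₁ := by
    have : 0 < 1 - (1 / 2 : ℝ) ^ (p - 1) := by linarith
    positivity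
  have hγ : 0 < |p - 2| / p := div_pos (abs_pos.2 (sub_ne_zero.2 hp2)) hp0
  set κ₀ := δ₀ / (14 * Ca + 6 * p * Cb) with hκ₀
  have hden : 0 < 14 * Ca + 6 * p * Cb := by positivity
  obtain ⟨C, hC, hwid⟩ := exists_width (η := δ₀ / Cb) (κ := κ₀) hp1 hγ hK (by positivity) hG₁0
    (by positivity)
  refine ⟨C, hC, fun X Ω _ _ _ _ d φ L hd hu hL1 hL => ?_⟩
  obtain ⟨Δ, hΔ, hw1, hw2, hw3⟩ := hwid L hL1
  rw [div_mul_cancel₀ _ hp0.ne'] at hw1
  obtain ⟨ψ, hψ⟩ := exists_window hΔ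
  set u : Ω → X × X → ℝ := fun ω => grad d (φ ω) with hu'
  have hu1 : ∀ ω e, |u ω e| ≤ 1 := by
    intro ω e
    have h1 : |u ω e| ^ p ≤ 1 := le_trans (Finset.single_le_sum
      (f := fun ω => |grad d (φ ω) e| ^ p) (fun ω _ => by positivity) (mem_univ ω)) (hu e)
    by_contra hcon
    push Not at hcon
    exact absurd h1 (not_le.2 (Real.one_lt_rpow hcon hp0))
  choose δ hδ1 hδ2 using fun ω e => exists_depth (u ω e) (hu1 ω e)
  set J : ℕ := ∑ ω, ∑ e, δ ω e with hJ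
  have hδJ : ∀ ω e, δ ω e ≤ J := fun ω e =>
    le_trans (Finset.single_le_sum (f := fun e => δ ω e) (fun _ _ => Nat.zero_le _) (mem_univ e))
      (Finset.single_le_sum (f := fun ω => ∑ e, δ ω e) (fun _ _ => Nat.zero_le _) (mem_univ ω))
  obtain ⟨B, hB1, hB2, hB3⟩ := hcomm X Ω d φ δ J L hd hu hδ1 hδ2 hL1 hL
  set S := ∑ m ∈ range (4 * Δ), ψ m ^ p with hS
  have hΔ1 : (1 : ℝ) ≤ Δ := by exact_mod_cast hΔ
  have hSΔ : (Δ : ℝ) ≤ S := hψ.le_sum p
  set A : Finset (Ω × ℕ) := univ ×ˢ range (J + 4 * Δ) with hA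
  set w : Ω × ℕ → ℝ := fun j => ((1 / 2 : ℝ) ^ j.2) ^ p with hw
  set v : Ω × ℕ → X × X → ℝ := fun j => jump ψ (u j.1) (δ j.1) j.2 with hv
  have hw0 : ∀ j, 0 ≤ w j := fun j => by positivity
  have hw1' : ∀ j, w j ≤ 1 := fun j =>
    Real.rpow_le_one (by positivity) (pow_le_one₀ (by norm_num) (by norm_num)) hp0.le
  set M : ℝ := 2 ^ (4 * Δ) with hM
  have hM0 : 0 ≤ M := by positivity
  have hpm : ∀ f, ∑ j ∈ A, w j * |v j f| ^ p = S * ∑ ω, |u ω f| ^ p := by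
    intro f
    rw [hA, Finset.sum_product, Finset.mul_sum]
    exact Finset.sum_congr rfl fun ω _ => hψ.jump_pmass hp0 (u ω) (δ ω) f (hδJ ω f)
  refine ⟨Finset (Ω × ℕ), A.powerset, wt w A,
    fun b x => ∑ f, clampTo M (∑ j ∈ b, v j f) * B f x, S, fun b _ => wt_nonneg hw0 hw1' A b, ?_,
    hΔ1.trans hSΔ, fun b e => ?_, fun e => ?_⟩
  · have := ex_const w A 1
    simpa [ex] using this
  · rw [← qop_eq_grad]
    refine le_trans ?_ hw3
    refine (Finset.abs_sum_le_sum_abs _ _).trans ?_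
    have h1 : ∑ f, |clampTo M (∑ j ∈ b, v j f) * grad d (B f) e| ≤ ∑ f, M * |grad d (B f) e| :=
      Finset.sum_le_sum fun f _ => by
        rw [abs_mul]
        exact mul_le_mul_of_nonneg_right (abs_clampTo_le hM0 _) (abs_nonneg _)
    rw [← Finset.mul_sum] at h1
    exact h1.trans (mul_le_mul_of_nonneg_left (hB2 e) hM0)
  · simp_rw [← qop_eq_grad]
    have hκ1 : (14 * Ca + 6 * p * Cb) * ((5 * L) ^ p * (G₁ * ((1 / 2 : ℝ) ^ Δ) ^ (p - 1))) ≤ δ₀ := by
      refine (mul_le_mul_of_nonneg_left hw2 hden.le).trans (le_of_eq ?_)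
      rw [hκ₀]; field_simp
    have key := flat_core (η := δ₀ / Cb) (κ := G₁ * ((1 / 2 : ℝ) ^ Δ) ^ (p - 1)) (T := 5 * L)
      (S := S) (μ := ∑ ω, |u ω e| ^ p) hp1 hδ₀0.le hδ₀1 hCa.le hCb.le hM0 (by linarith)
      (hΔ1.trans hSΔ) (by positivity) hadd hper
      (by rw [mul_div_cancel₀ _ hCb.ne']; exact hδ₀1)
      (by
        have : 0 ≤ (5 * L) ^ p * (G₁ * ((1 / 2 : ℝ) ^ Δ) ^ (p - 1)) := by positivity
        nlinarith [mul_nonneg (by positivity : 0 ≤ 6 * p * Cb) this, mul_nonneg hCa.le this])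
      d B e (hB2 e) hw0 hw1' A v (fun j f => hψ.abs_jump_le (hδ1 j.1 f) j.2)
      (fun f => by
        rw [hpm]
        exact mul_le_of_le_one_right (by linarith) (hu f))
      (hpm e)
      (fun f => by
        rw [hA, Finset.sum_product]
        refine (Finset.sum_le_sum fun ω _ => hψ.jump_onemass hp1 (hδ2 ω f) (J + 4 * Δ)).trans ?_
        rw [← Finset.mul_sum]
        exact mul_le_of_le_one_right (by positivity) (hu f))
      (by
        rw [hA, Finset.sum_product]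
        refine (Finset.sum_le_sum fun ω _ => hψ.jump_err hΔ hp1 d B (u ω) (δ ω) (hB1 (φ ω))
          (hδJ ω) (J + 4 * Δ) e).trans ?_
        rw [← Finset.mul_sum]
        refine (mul_le_mul_of_nonneg_left (hB3 e) (by positivity)).trans (hw1.trans ?_)
        exact mul_le_mul_of_nonneg_left hSΔ (by positivity))
    refine le_trans key (mul_le_mul_of_nonneg_right ?_ (by linarith))
    rw [mul_div_cancel₀ _ hCb.ne']
    linarith

/-- Dimension reduction for finite configurations. -/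
theorem finite_reduction {p ε : ℝ} (hp1 : 1 < p) (hp2 : p ≠ 2) (hε : 0 < ε) :
    ∃ C : ℝ, 0 < C ∧ ∀ (X Ω : Type) [Fintype X] [DecidableEq X] [Nonempty X] [Fintype Ω]
      (d : X × X → ℝ) (φ : Ω → X → ℝ) (L : ℝ),
      (∀ e, 0 < d e) → (∀ e, ∑ ω, |grad d (φ ω) e| ^ p ≤ 1) →
      1 ≤ L → 8 * Real.log (Fintype.card X) ≤ L →
      ∃ (N : ℕ) (y : Fin N → X → ℝ) (s : ℝ), (N : ℝ) ≤ Real.exp (C * L ^ (|p - 2| / p)) ∧ 0 < s ∧
        ∀ e, abs (∑ i, |grad d (y i) e| ^ p - s * ∑ ω, |grad d (φ ω) e| ^ p) ≤ ε * s := by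
  have hp0 : 0 < p := by linarith
  set η := min 1 (ε / 2) with hη
  have hη0 : 0 < η := lt_min one_pos (by positivity)
  have hη1 : η ≤ 1 := min_le_left _ _
  have hη2 : η ≤ ε / 2 := min_le_right _ _
  obtain ⟨C, hC, hflat⟩ := exists_flat hp1 hp2 hη0
  have hγ : 0 < |p - 2| / p := div_pos (abs_pos.2 (sub_ne_zero.2 hp2)) hp0
  set γ := |p - 2| / p with hγ'
  have hlog9 : 0 ≤ Real.log (9 / η ^ 2) := Real.log_nonneg (by
    rw [le_div_iff₀ (by positivity)]; nlinarith)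
  refine ⟨2 * p * C + 1 / γ + Real.log (9 / η ^ 2), by positivity,
    fun X Ω _ _ _ _ d φ L hd hu hL1 hL => ?_⟩
  obtain ⟨W, s, q, G, S, hq0, hq1, hS, hG, hE⟩ := hflat X Ω d φ L hd hu hL1 hL
  have hL0 : 0 < L := by linarith
  set x := L ^ γ with hx
  have hx1 : 1 ≤ x := Real.one_le_rpow hL1 hγ.le
  set R := Real.exp (p * (C * x)) with hR
  have hR1 : 1 ≤ R := Real.one_le_exp (by positivity)
  set N := ⌈8 * R ^ 2 * L / η ^ 2⌉₊ with hN
  have hN1 : 8 * R ^ 2 * L / η ^ 2 ≤ (N : ℝ) := Nat.le_ceil _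
  have hge : 1 ≤ R ^ 2 * L / η ^ 2 := by
    rw [le_div_iff₀ (by positivity)]
    have : 1 ≤ R ^ 2 := one_le_pow₀ hR1
    nlinarith
  have h89 : 8 * R ^ 2 * L / η ^ 2 = 8 * (R ^ 2 * L / η ^ 2) := by ring
  have hN2 : (N : ℝ) ≤ 9 * (R ^ 2 * L / η ^ 2) := by
    have := (Nat.ceil_lt_add_one (show 0 ≤ 8 * R ^ 2 * L / η ^ 2 by positivity)).le
    linarith
  have hN0 : (0 : ℝ) < N := by linarith
  have hS0 : 0 < S := by linarith
  have hn : (1 : ℝ) ≤ Fintype.card X := by exact_mod_cast Fintype.card_pos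
  obtain ⟨b, hb⟩ := exists_sample s q hq0 hq1 (fun (e : X × X) c => |grad d (G c) e| ^ p / S) hR1
    (fun e c => by positivity)
    (fun e c => by
      refine (div_le_self (by positivity) hS).trans ?_
      rw [hR, mul_comm p, Real.exp_mul]
      exact Real.rpow_le_rpow (abs_nonneg _) (hG c e) hp0.le)
    hη0 hη1 N (by
      have h1 : Real.log (2 * Fintype.card (X × X)) ≤ 2 * L := by
        rw [Fintype.card_prod]
        push_cast
        rw [Real.log_mul (by norm_num) (by positivity), Real.log_mul (by positivity) (by positivity)]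
        linarith [Real.log_le_sub_one_of_pos (show (0 : ℝ) < 2 by norm_num)]
      rw [div_le_iff₀ (by positivity)] at hN1
      nlinarith [mul_le_mul_of_nonneg_left h1 (by positivity : 0 ≤ 4 * R ^ 2)])
  refine ⟨N, fun i => G (b i), N * S, hN2.trans ?_, by positivity, fun e => ?_⟩
  · rw [← Real.log_le_iff_le_exp (by positivity)]
    have h1 : 9 * (R ^ 2 * L / η ^ 2) = 9 / η ^ 2 * (R ^ 2 * L) := by ring
    rw [h1, Real.log_mul (by positivity) (by positivity), Real.log_mul (by positivity) hL0.ne',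
      Real.log_pow, hR, Real.log_exp]
    have hlog : Real.log L ≤ 1 / γ * x := by
      rw [one_div, ← div_eq_inv_mul, le_div_iff₀ hγ, mul_comm, ← Real.log_rpow hL0]
      linarith [Real.log_le_sub_one_of_pos (show 0 < x by linarith)]
    have h2 : Real.log (9 / η ^ 2) ≤ Real.log (9 / η ^ 2) * x := le_mul_of_one_le_right hlog9 hx1
    push_cast
    nlinarith
  · have h1 := hb e
    have h2 := hE e
    simp only [← mul_div_assoc, ← Finset.sum_div] at h1
    rw [← sub_div, abs_div, abs_of_pos hS0, div_le_iff₀ hS0] at h1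
    have h3 := mul_le_mul_of_nonneg_left h2 hN0.le
    rw [← abs_of_pos hN0, ← abs_mul, abs_of_pos hN0] at h3
    have h4 : 0 < N * S := by positivity
    rw [abs_le] at h1 h3 ⊢
    constructor <;> nlinarith [h1.1, h1.2, h3.1, h3.2]

end Crest.Agent.R232
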