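import Mathlib

set_option autoImplicit false

namespace Crest.Agent.R232

open Finset

variable {X : Type*} [Fintype X]

/-- One step of the lazy reversible walk with vertex weights `m`, conductances `C`, step `τ`. -/
noncomputable def walk (m : X → ℝ) (C : X → X → ℝ) (τ : ℝ) : Module.End ℝ (X → ℝ) where
  toFun h := fun x => h x + τ / m x * ∑ y, C x y * (h y - h x)
  map_add' h k := by
    ext x
    simp only [Pi.add_apply]
    have : ∑ y, C x y * (h y + k y - (h x + k x)) =
        ∑ y, C x y * (h y - h x) + ∑ y, C x y * (k y - k x) := by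
      rw [← Finset.sum_add_distrib]; exact Finset.sum_congr rfl fun y _ => by ring
    rw [this]; ring
  map_smul' a h := by
    ext x
    simp only [Pi.smul_apply, smul_eq_mul, RingHom.id_apply]
    have : ∑ y, C x y * (a * h y - a * h x) = a * ∑ y, C x y * (h y - h x) := by
      rw [Finset.mul_sum]; exact Finset.sum_congr rfl fun y _ => by ring
    rw [this]; ring

theorem walk_apply (m : X → ℝ) (C : X → X → ℝ) (τ : ℝ) (h : X → ℝ) (x : X) :
    walk m C τ h x = h x + τ / m x * ∑ y, C x y * (h y - h x) := rfl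

/-- The data of a lazy reversible walk. -/
structure IsLazy (m : X → ℝ) (C : X → X → ℝ) (τ : ℝ) : Prop where
  m_pos : ∀ x, 0 < m x
  C_nonneg : ∀ x y, 0 ≤ C x y
  C_symm : ∀ x y, C x y = C y x
  τ_pos : 0 < τ
  lazy : ∀ x, τ * ∑ y, C x y ≤ m x / 2

variable {m : X → ℝ} {C : X → X → ℝ} {τ : ℝ}

theorem walk_form (H : IsLazy m C τ) (h k : X → ℝ) :
    ∑ x, m x * (walk m C τ h x * k x) =
      ∑ x, m x * (h x * k x) - τ / 2 * ∑ x, ∑ y, C x y * ((h x - h y) * (k x - k y)) := by
  have h1 : ∀ x, m x * (walk m C τ h x * k x) =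
      m x * (h x * k x) + τ * ∑ y, C x y * ((h y - h x) * k x) := by
    intro x
    rw [walk_apply]
    have hx := (H.m_pos x).ne'
    have : ∑ y, C x y * ((h y - h x) * k x) = (∑ y, C x y * (h y - h x)) * k x := by
      rw [Finset.sum_mul]; exact Finset.sum_congr rfl fun y _ => by ring
    rw [this]; field_simp
  simp_rw [h1]
  rw [Finset.sum_add_distrib, ← Finset.mul_sum]
  have h2 : ∑ x, ∑ y, C x y * ((h y - h x) * k x) = ∑ x, ∑ y, C x y * ((h x - h y) * k y) := by
    rw [Finset.sum_comm]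
    exact Finset.sum_congr rfl fun x _ => Finset.sum_congr rfl fun y _ => by rw [H.C_symm]
  have h3 : ∑ x, ∑ y, C x y * ((h x - h y) * (k x - k y)) =
      -(∑ x, ∑ y, C x y * ((h y - h x) * k x)) - ∑ x, ∑ y, C x y * ((h x - h y) * k y) := by
    rw [← Finset.sum_neg_distrib, ← Finset.sum_sub_distrib]
    refine Finset.sum_congr rfl fun x _ => ?_
    rw [← Finset.sum_neg_distrib, ← Finset.sum_sub_distrib]
    exact Finset.sum_congr rfl fun y _ => by ring
  rw [h3, ← h2]; ring

theorem walk_selfadj (H : IsLazy m C τ) (h k : X → ℝ) :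
    ∑ x, m x * (walk m C τ h x * k x) = ∑ x, m x * (h x * walk m C τ k x) := by
  have h1 := walk_form H h k
  have h2 := walk_form H k h
  have h3 : ∑ x, m x * (h x * walk m C τ k x) = ∑ x, m x * (walk m C τ k x * h x) :=
    Finset.sum_congr rfl fun x _ => by ring
  have h4 : ∑ x, m x * (k x * h x) = ∑ x, m x * (h x * k x) :=
    Finset.sum_congr rfl fun x _ => by ring
  have h5 : ∑ x, ∑ y, C x y * ((k x - k y) * (h x - h y)) =
      ∑ x, ∑ y, C x y * ((h x - h y) * (k x - k y)) :=
    Finset.sum_congr rfl fun x _ => Finset.sum_congr rfl fun y _ => by ring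
  rw [h1, h3, h2, h4, h5]

theorem walk_pow_selfadj (H : IsLazy m C τ) (a : ℕ) (h k : X → ℝ) :
    ∑ x, m x * ((walk m C τ ^ a) h x * k x) = ∑ x, m x * (h x * (walk m C τ ^ a) k x) := by
  induction a generalizing h k with
  | zero => simp
  | succ a ih =>
    have e1 : (walk m C τ ^ (a + 1)) h = walk m C τ ((walk m C τ ^ a) h) := by
      rw [pow_succ']; rfl
    have e2 : (walk m C τ ^ (a + 1)) k = (walk m C τ ^ a) (walk m C τ k) := by
      rw [pow_succ]; rfl
    rw [e1, e2, walk_selfadj H, ih]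

theorem walk_mass (H : IsLazy m C τ) (h : X → ℝ) :
    ∑ x, m x * walk m C τ h x = ∑ x, m x * h x := by
  have := walk_form H h (fun _ => 1)
  simpa using this

theorem walk_eq_comb (m : X → ℝ) (C : X → X → ℝ) (τ : ℝ) (h : X → ℝ) (x : X) :
    walk m C τ h x = (1 - τ / m x * ∑ y, C x y) * h x + ∑ y, (τ / m x * C x y) * h y := by
  rw [walk_apply]
  have : ∑ y, C x y * (h y - h x) = ∑ y, C x y * h y - (∑ y, C x y) * h x := by
    rw [Finset.sum_mul, ← Finset.sum_sub_distrib]; exact Finset.sum_congr rfl fun y _ => by ring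
  rw [this]
  have : ∑ y, (τ / m x * C x y) * h y = τ / m x * ∑ y, C x y * h y := by
    rw [Finset.mul_sum]; exact Finset.sum_congr rfl fun y _ => by ring
  rw [this]; ring

theorem IsLazy.beta_le (H : IsLazy m C τ) (x : X) : τ / m x * ∑ y, C x y ≤ 1 / 2 := by
  have h1 := H.lazy x
  have h2 := H.m_pos x
  rw [div_mul_eq_mul_div, div_le_iff₀ h2]; linarith

theorem walk_nonneg (H : IsLazy m C τ) {h : X → ℝ} (hh : ∀ x, 0 ≤ h x) (x : X) :
    0 ≤ walk m C τ h x := by
  rw [walk_eq_comb]
  have h1 := H.beta_le x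
  have h2 := H.m_pos x
  have h3 := H.τ_pos
  refine add_nonneg (mul_nonneg (by linarith) (hh x)) (Finset.sum_nonneg fun y _ => ?_)
  exact mul_nonneg (mul_nonneg (by positivity) (H.C_nonneg x y)) (hh y)

/-- Bregman divergence of `t log t` dominates the squared Hellinger distance. -/
theorem bregman_ge {a b : ℝ} (ha : 0 ≤ a) (hb : 0 ≤ b) (hab : b = 0 → a = 0) :
    (√a - √b) ^ 2 ≤ a * Real.log a - a * Real.log b - a + b := by
  rcases ha.eq_or_lt with rfl | ha'
  · simp [Real.sq_sqrt hb]
  · have hb' : 0 < b := by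
      rcases hb.eq_or_lt with rfl | hb'
      · exact absurd (hab rfl) ha'.ne'
      · exact hb'
    have hsa : 0 < √a := Real.sqrt_pos.2 ha'
    have hsb : 0 < √b := Real.sqrt_pos.2 hb'
    have h1 : Real.log (√b / √a) ≤ √b / √a - 1 := Real.log_le_sub_one_of_pos (by positivity)
    rw [Real.log_div hsb.ne' hsa.ne', Real.log_sqrt hb, Real.log_sqrt ha] at h1
    have h2 : a * (√b / √a) = √a * √b := by
      have : a = √a * √a := (Real.mul_self_sqrt ha).symm
      field_simp
      nlinarith [Real.mul_self_sqrt ha]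
    have h3 := mul_le_mul_of_nonneg_left h1 ha
    have h4 : (√a - √b) ^ 2 = a + b - 2 * (√a * √b) := by
      nlinarith [Real.mul_self_sqrt ha, Real.mul_self_sqrt hb]
    rw [h4]
    nlinarith

/-- Entropy of a density. -/
noncomputable def ent (m : X → ℝ) (h : X → ℝ) : ℝ := ∑ x, m x * (h x * Real.log (h x))

theorem ent_step (H : IsLazy m C τ) {h : X → ℝ} (hh : ∀ x, 0 ≤ h x) :
    τ / 2 * ∑ x, ∑ y, C x y * (√(h x) - √(h y)) ^ 2 ≤ ent m h - ent m (walk m C τ h) := by
  have hmass := walk_mass H (fun x => h x * Real.log (h x))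
  have key : ∀ x, τ / 2 * ∑ y, C x y * (√(h x) - √(h y)) ^ 2 ≤
      m x * walk m C τ (fun x => h x * Real.log (h x)) x -
        m x * (walk m C τ h x * Real.log (walk m C τ h x)) := by
    intro x
    have hb0 := walk_nonneg H hh x
    have hbe := walk_eq_comb m C τ h x
    set b := walk m C τ h x with hb
    have hmx := H.m_pos x
    have hτ := H.τ_pos
    set β := τ / m x * ∑ y, C x y with hβ
    have hβ1 : β ≤ 1 / 2 := H.beta_le x
    have hw : ∀ y, 0 ≤ τ / m x * C x y := fun y => mul_nonneg (by positivity) (H.C_nonneg x y)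
    have hβs : β = ∑ y, τ / m x * C x y := by rw [hβ, Finset.mul_sum]
    have hβ0 : 0 ≤ β := by rw [hβs]; exact Finset.sum_nonneg fun y _ => hw y
    have hsum0 : 0 ≤ ∑ y, (τ / m x * C x y) * h y :=
      Finset.sum_nonneg fun y _ => mul_nonneg (hw y) (hh y)
    -- the centre term
    have hx0 : b = 0 → h x = 0 := by
      intro hb'
      have : (1 - β) * h x ≤ 0 := by linarith
      have h2 : 0 < 1 - β := by linarith
      have h3 : h x ≤ 0 := by
        by_contra h4
        push Not at h4
        nlinarith [mul_pos h2 h4]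
      exact le_antisymm h3 (hh x)
    have t1 := bregman_ge (hh x) hb0 hx0
    have t2 : ∀ y, (τ / m x * C x y) * (√(h y) - √b) ^ 2 ≤
        (τ / m x * C x y) * (h y * Real.log (h y) - h y * Real.log b - h y + b) := by
      intro y
      rcases (hw y).eq_or_lt with h0 | hpos
      · rw [← h0]; simp
      · refine mul_le_mul_of_nonneg_left (bregman_ge (hh y) hb0 fun hb' => ?_) (hw y)
        have h1 : (τ / m x * C x y) * h y ≤ ∑ y, (τ / m x * C x y) * h y :=
          Finset.single_le_sum (f := fun y => (τ / m x * C x y) * h y)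
            (fun y _ => mul_nonneg (hw y) (hh y)) (mem_univ y)
        have h2 : 0 ≤ (1 - β) * h x := mul_nonneg (by linarith) (hh x)
        have h3 : (τ / m x * C x y) * h y ≤ 0 := by linarith
        have h4 : h y ≤ 0 := by
          by_contra h4
          push Not at h4
          nlinarith [mul_pos hpos h4]
        exact le_antisymm h4 (hh y)
    have t3 : ∑ y, (τ / m x * C x y) * (√(h y) - √b) ^ 2 ≤
        ∑ y, (τ / m x * C x y) * (h y * Real.log (h y)) -
          (∑ y, (τ / m x * C x y) * h y) * Real.log b - ∑ y, (τ / m x * C x y) * h y + β * b := by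
      refine (Finset.sum_le_sum fun y _ => t2 y).trans (le_of_eq ?_)
      rw [hβs, Finset.sum_mul, Finset.sum_mul, ← Finset.sum_sub_distrib, ← Finset.sum_sub_distrib,
        ← Finset.sum_add_distrib]
      exact Finset.sum_congr rfl fun y _ => by ring
    have t4 : ∑ y, (τ / m x * C x y) * ((√(h x) - √(h y)) ^ 2 / 2) ≤
        β * (√(h x) - √b) ^ 2 + ∑ y, (τ / m x * C x y) * (√(h y) - √b) ^ 2 := by
      rw [hβs, Finset.sum_mul, ← Finset.sum_add_distrib]
      refine Finset.sum_le_sum fun y _ => ?_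
      rw [← mul_add]
      refine mul_le_mul_of_nonneg_left ?_ (hw y)
      nlinarith [sq_nonneg (√(h x) + √(h y) - 2 * √b)]
    have t5 : β * (√(h x) - √b) ^ 2 ≤
        (1 - β) * (h x * Real.log (h x) - h x * Real.log b - h x + b) := by
      have : β * (√(h x) - √b) ^ 2 ≤ (1 - β) * (√(h x) - √b) ^ 2 :=
        mul_le_mul_of_nonneg_right (by linarith) (sq_nonneg _)
      exact this.trans (mul_le_mul_of_nonneg_left t1 (by linarith))
    have t6 : ∑ y, (τ / m x * C x y) * ((√(h x) - √(h y)) ^ 2 / 2) ≤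
        walk m C τ (fun x => h x * Real.log (h x)) x - b * Real.log b := by
      rw [walk_eq_comb m C τ (fun x => h x * Real.log (h x)) x, ← hβ]
      have e : ∑ y, (τ / m x * C x y) * h y = b - (1 - β) * h x := by linarith
      rw [e] at t3
      nlinarith
    have t7 : τ / 2 * ∑ y, C x y * (√(h x) - √(h y)) ^ 2 =
        m x * ∑ y, (τ / m x * C x y) * ((√(h x) - √(h y)) ^ 2 / 2) := by
      rw [Finset.mul_sum, Finset.mul_sum]
      refine Finset.sum_congr rfl fun y _ => ?_
      field_simp
    rw [t7, ← mul_sub]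
    exact mul_le_mul_of_nonneg_left t6 hmx.le
  rw [Finset.mul_sum]
  refine (Finset.sum_le_sum fun x _ => key x).trans (le_of_eq ?_)
  rw [Finset.sum_sub_distrib, hmass]
  rfl

theorem ent_nonneg (hm : ∀ x, 0 < m x) (hm1 : ∑ x, m x = 1) {h : X → ℝ} (hh : ∀ x, 0 ≤ h x)
    (h1 : ∑ x, m x * h x = 1) : 0 ≤ ent m h := by
  have : ∑ x, m x * (h x - 1) ≤ ent m h := by
    refine Finset.sum_le_sum fun x _ => mul_le_mul_of_nonneg_left ?_ (hm x).le
    have := bregman_ge (hh x) zero_le_one (by norm_num)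
    simp only [Real.log_one, mul_zero, sub_zero] at this
    nlinarith [sq_nonneg (√(h x) - √1)]
  have e : ∑ x, m x * (h x - 1) = 0 := by
    simp_rw [mul_sub, mul_one]
    rw [Finset.sum_sub_distrib, h1, hm1, sub_self]
  linarith

theorem walk_pow_nonneg (H : IsLazy m C τ) {h : X → ℝ} (hh : ∀ x, 0 ≤ h x) (a : ℕ) (x : X) :
    0 ≤ (walk m C τ ^ a) h x := by
  induction a generalizing x with
  | zero => simpa using hh x
  | succ a ih =>
    have e1 : (walk m C τ ^ (a + 1)) h = walk m C τ ((walk m C τ ^ a) h) := by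
      rw [pow_succ']; rfl
    rw [e1]; exact walk_nonneg H ih x

theorem walk_pow_mass (H : IsLazy m C τ) (h : X → ℝ) (a : ℕ) :
    ∑ x, m x * (walk m C τ ^ a) h x = ∑ x, m x * h x := by
  induction a with
  | zero => simp
  | succ a ih =>
    have e1 : (walk m C τ ^ (a + 1)) h = walk m C τ ((walk m C τ ^ a) h) := by
      rw [pow_succ']; rfl
    rw [e1, walk_mass H, ih]

/-- Total Hellinger energy along the walk is bounded by the initial entropy. -/
theorem sum_energy_le (H : IsLazy m C τ) (hm1 : ∑ x, m x = 1) {h : X → ℝ} (hh : ∀ x, 0 ≤ h x)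
    (h1 : ∑ x, m x * h x = 1) (N : ℕ) :
    ∑ a ∈ range N, τ / 2 * ∑ x, ∑ y, C x y *
      (√((walk m C τ ^ a) h x) - √((walk m C τ ^ a) h y)) ^ 2 ≤ ent m h := by
  have key : ∑ a ∈ range N, τ / 2 * ∑ x, ∑ y, C x y *
      (√((walk m C τ ^ a) h x) - √((walk m C τ ^ a) h y)) ^ 2 ≤
      ent m h - ent m ((walk m C τ ^ N) h) := by
    induction N with
    | zero => simp
    | succ N ih =>
      rw [Finset.sum_range_succ]
      have e1 : (walk m C τ ^ (N + 1)) h = walk m C τ ((walk m C τ ^ N) h) := by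
        rw [pow_succ']; rfl
      have := ent_step H (walk_pow_nonneg H hh N)
      rw [e1]; linarith
  have := ent_nonneg H.m_pos hm1 (walk_pow_nonneg H hh N) (by rw [walk_pow_mass H, h1])
  linarith

end Crest.Agent.R232
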