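import Crest.Agent.R232.Commutator

set_option autoImplicit false

namespace Crest.Agent.R232

open Finset

/-- A trapezoidal window of width `Δ`. -/
structure IsWindow (Δ : ℕ) (ψ : ℕ → ℝ) : Prop where
  nonneg : ∀ m, 0 ≤ ψ m
  le_one : ∀ m, ψ m ≤ 1
  low : ∀ m, m ≤ Δ → ψ m = 0
  high : ∀ m, 4 * Δ ≤ m → ψ m = 0
  mid : ∀ m, 2 * Δ ≤ m → m ≤ 3 * Δ → ψ m = 1
  lip : ∀ m, |ψ (m + 1) - ψ m| ≤ 1 / Δ

theorem exists_window {Δ : ℕ} (hΔ : 1 ≤ Δ) : ∃ ψ, IsWindow Δ ψ := by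
  have hΔ0 : (0 : ℝ) < Δ := by exact_mod_cast hΔ
  refine ⟨fun m => max 0 (min 1 (min ((m : ℝ) - Δ) (4 * Δ - m) / Δ)), fun m => le_max_left _ _,
    fun m => max_le zero_le_one (min_le_left _ _), fun m hm => ?_, fun m hm => ?_,
    fun m h1 h2 => ?_, fun m => ?_⟩
  · have : (m : ℝ) ≤ Δ := by exact_mod_cast hm
    refine max_eq_left (min_le_of_right_le (div_nonpos_of_nonpos_of_nonneg
      (min_le_of_left_le (by linarith)) hΔ0.le))
  · have : (4 * Δ : ℝ) ≤ m := by exact_mod_cast hm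
    refine max_eq_left (min_le_of_right_le (div_nonpos_of_nonpos_of_nonneg
      (min_le_of_right_le (by linarith)) hΔ0.le))
  · have h1' : (2 * Δ : ℝ) ≤ m := by exact_mod_cast h1
    have h2' : (m : ℝ) ≤ 3 * Δ := by exact_mod_cast h2
    have : 1 ≤ min ((m : ℝ) - Δ) (4 * Δ - m) / Δ := by
      rw [le_div_iff₀ hΔ0]; exact le_min (by linarith) (by linarith)
    simp only [min_eq_left this, max_eq_right zero_le_one]
  · refine (abs_max_sub_max_le_max _ _ _ _).trans (max_le (by simp) ?_)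
    refine (abs_min_sub_min_le_max _ _ _ _).trans (max_le (by simp) ?_)
    rw [← sub_div, abs_div, abs_of_pos hΔ0]
    refine div_le_div_of_nonneg_right ?_ hΔ0.le
    refine (abs_min_sub_min_le_max _ _ _ _).trans (max_le ?_ ?_)
    · push_cast; rw [abs_le]; constructor <;> linarith
    · push_cast; rw [abs_le]; constructor <;> linarith

variable {Δ : ℕ} {ψ : ℕ → ℝ}

theorem IsWindow.le_sum (H : IsWindow Δ ψ) (p : ℝ) : (Δ : ℝ) ≤ ∑ m ∈ range (4 * Δ), ψ m ^ p := by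
  have h1 : ∑ m ∈ Ico (2 * Δ) (3 * Δ), ψ m ^ p = Δ := by
    rw [Finset.sum_congr rfl (g := fun _ => (1 : ℝ)) fun m hm => by
      rw [H.mid m (mem_Ico.1 hm).1 (mem_Ico.1 hm).2.le, Real.one_rpow]]
    simp only [sum_const, Nat.card_Ico, nsmul_eq_mul, mul_one, Nat.cast_inj]
    omega
  rw [← h1]
  refine Finset.sum_le_sum_of_subset_of_nonneg (fun m hm => ?_)
    fun m _ _ => Real.rpow_nonneg (H.nonneg m) p
  simp only [mem_Ico, mem_range] at hm ⊢
  omega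

theorem IsWindow.sum_shift (H : IsWindow Δ ψ) {p : ℝ} (hp : 0 < p) {δ J : ℕ} (hδ : δ ≤ J) :
    ∑ k ∈ range (J + 4 * Δ), ψ (k - δ) ^ p = ∑ m ∈ range (4 * Δ), ψ m ^ p := by
  have h1 : ∑ k ∈ Ico δ (δ + 4 * Δ), ψ (k - δ) ^ p = ∑ m ∈ range (4 * Δ), ψ m ^ p := by
    rw [Finset.sum_Ico_eq_sum_range]
    simp
  rw [← h1]
  symm
  refine Finset.sum_subset (fun k hk => ?_) fun k _ hk => ?_
  · simp only [mem_Ico, mem_range] at hk ⊢; omega
  · simp only [mem_Ico, not_and_or, not_le, not_lt] at hk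
    rcases hk with hk | hk
    · rw [H.low _ (by omega), Real.zero_rpow hp.ne']
    · rw [H.high _ (by omega), Real.zero_rpow hp.ne']

theorem IsWindow.abs_diff_le (H : IsWindow Δ ψ) (k i : ℕ) :
    |ψ (k - (i + 1)) - ψ (k - i)| ≤ if k ∈ Ico (i + 1) (i + 1 + 4 * Δ) then 1 / (Δ : ℝ) else 0 := by
  split_ifs with h
  · rw [mem_Ico] at h
    rw [show k - i = k - (i + 1) + 1 by omega, abs_sub_comm]
    exact H.lip _
  · simp only [mem_Ico, not_and_or, not_le, not_lt] at h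
    rcases h with h | h
    · rw [H.low _ (by omega), H.low _ (by omega)]; simp
    · rw [H.high _ (by omega), H.high _ (by omega)]; simp

theorem IsWindow.sum_abs_diff_le (H : IsWindow Δ ψ) (hΔ : 1 ≤ Δ) (K i : ℕ) :
    ∑ k ∈ range K, |ψ (k - (i + 1)) - ψ (k - i)| ≤ 4 := by
  have hΔ0 : (0 : ℝ) < Δ := by exact_mod_cast hΔ
  refine (Finset.sum_le_sum fun k _ => H.abs_diff_le k i).trans ?_
  rw [← Finset.sum_filter, Finset.sum_const, nsmul_eq_mul]
  have h1 : ((range K).filter (fun k => k ∈ Ico (i + 1) (i + 1 + 4 * Δ))).card ≤ 4 * Δ := by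
    refine (Finset.card_le_card (t := Ico (i + 1) (i + 1 + 4 * Δ)) fun k hk =>
      (mem_filter.1 hk).2).trans ?_
    simp
  have h2 : (((range K).filter (fun k => k ∈ Ico (i + 1) (i + 1 + 4 * Δ))).card : ℝ) ≤ 4 * Δ := by
    exact_mod_cast h1
  rw [mul_one_div, div_le_iff₀ hΔ0]
  exact h2

/-- Slow cut-off gains a power of the width. -/
theorem IsWindow.sum_comm_le (H : IsWindow Δ ψ) (hΔ : 1 ≤ Δ) {p : ℝ} (hp : 1 < p) (E : ℕ → ℝ)
    (J K : ℕ) :
    ∑ k ∈ range K, |∑ i ∈ range J, (ψ (k - (i + 1)) - ψ (k - i)) * E i| ^ p ≤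
      4 * (Δ : ℝ) / (Δ : ℝ) ^ p * (∑ i ∈ range J, |E i|) ^ p := by
  have hΔ0 : (0 : ℝ) < Δ := by exact_mod_cast hΔ
  set T := ∑ i ∈ range J, |E i| with hT
  have hT0 : 0 ≤ T := Finset.sum_nonneg fun i _ => abs_nonneg _
  set a : ℕ → ℝ := fun k => ∑ i ∈ range J, |ψ (k - (i + 1)) - ψ (k - i)| * |E i| with ha
  have ha0 : ∀ k, 0 ≤ a k := fun k => Finset.sum_nonneg fun i _ => by positivity
  have ha1 : ∀ k, a k ≤ T / Δ := fun k => by
    rw [hT, Finset.sum_div]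
    refine Finset.sum_le_sum fun i _ => ?_
    have h1 : |ψ (k - (i + 1)) - ψ (k - i)| ≤ 1 / Δ := by
      refine (H.abs_diff_le k i).trans ?_
      split_ifs
      · exact le_rfl
      · positivity
    refine (mul_le_mul_of_nonneg_right h1 (abs_nonneg _)).trans (le_of_eq ?_)
    ring
  have h1 : ∀ k, |∑ i ∈ range J, (ψ (k - (i + 1)) - ψ (k - i)) * E i| ^ p ≤
      a k * (T / Δ) ^ (p - 1) := fun k => by
    have h2 : |∑ i ∈ range J, (ψ (k - (i + 1)) - ψ (k - i)) * E i| ≤ a k :=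
      (Finset.abs_sum_le_sum_abs _ _).trans (le_of_eq (Finset.sum_congr rfl fun i _ => abs_mul _ _))
    refine (Real.rpow_le_rpow (abs_nonneg _) h2 (by linarith)).trans ?_
    rw [rpow_eq_mul_rpow_sub_one hp (ha0 k)]
    exact mul_le_mul_of_nonneg_left (Real.rpow_le_rpow (ha0 k) (ha1 k) (by linarith)) (ha0 k)
  refine (Finset.sum_le_sum fun k _ => h1 k).trans ?_
  rw [← Finset.sum_mul]
  have h2 : ∑ k ∈ range K, a k ≤ 4 * T := by
    simp only [ha]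
    rw [Finset.sum_comm, hT, Finset.mul_sum]
    refine Finset.sum_le_sum fun i _ => ?_
    rw [← Finset.sum_mul]
    exact mul_le_mul_of_nonneg_right (H.sum_abs_diff_le hΔ K i) (abs_nonneg _)
  refine (mul_le_mul_of_nonneg_right h2 (by positivity)).trans (le_of_eq ?_)
  rw [Real.div_rpow hT0 hΔ0.le, rpow_eq_mul_rpow_sub_one hp hT0,
    rpow_eq_mul_rpow_sub_one hp hΔ0.le]
  have : (0 : ℝ) < (Δ : ℝ) ^ (p - 1) := by positivity
  field_simp

section
variable {X : Type*}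

/-- The windowed and rescaled edge vector. -/
noncomputable def jump (ψ : ℕ → ℝ) (u : X × X → ℝ) (δ : X × X → ℕ) (k : ℕ) (f : X × X) : ℝ :=
  2 ^ k * (u f * ψ (k - δ f))

theorem half_pow_rpow_mul {p : ℝ} (k : ℕ) (t : ℝ) :
    ((1 / 2 : ℝ) ^ k) ^ p * |2 ^ k * t| ^ p = |t| ^ p := by
  rw [← Real.mul_rpow (by positivity) (abs_nonneg _), abs_mul, abs_of_pos (by positivity),
    ← mul_assoc, ← mul_pow]
  norm_num

theorem IsWindow.abs_jump_le (H : IsWindow Δ ψ) {u : X × X → ℝ} {δ : X × X → ℕ} {f : X × X}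
    (hu : |u f| ≤ (1 / 2) ^ δ f) (k : ℕ) : |jump ψ u δ k f| ≤ 2 ^ (4 * Δ) := by
  rcases le_or_gt (4 * Δ) (k - δ f) with h | h
  · rw [jump, H.high _ h]; simp
  · rw [jump, abs_mul, abs_mul, abs_of_pos (by positivity), abs_of_nonneg (H.nonneg _)]
    have h1 : |u f| * ψ (k - δ f) ≤ (1 / 2) ^ δ f :=
      (mul_le_of_le_one_right (abs_nonneg _) (H.le_one _)).trans hu
    have h2 : (2 : ℝ) ^ k ≤ 2 ^ (4 * Δ + δ f) := pow_le_pow_right₀ one_le_two (by omega)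
    calc (2 : ℝ) ^ k * (|u f| * ψ (k - δ f)) ≤ 2 ^ (4 * Δ + δ f) * (1 / 2) ^ δ f :=
          mul_le_mul h2 h1 (mul_nonneg (abs_nonneg _) (H.nonneg _)) (by positivity)
      _ = 2 ^ (4 * Δ) := by rw [pow_add, mul_assoc, ← mul_pow]; norm_num

theorem IsWindow.jump_pmass (H : IsWindow Δ ψ) {p : ℝ} (hp : 0 < p) (u : X × X → ℝ)
    (δ : X × X → ℕ) (f : X × X) {J : ℕ} (hδ : δ f ≤ J) :
    ∑ k ∈ range (J + 4 * Δ), ((1 / 2 : ℝ) ^ k) ^ p * |jump ψ u δ k f| ^ p =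
      (∑ m ∈ range (4 * Δ), ψ m ^ p) * |u f| ^ p := by
  rw [← H.sum_shift hp hδ, Finset.sum_mul]
  refine Finset.sum_congr rfl fun k _ => ?_
  rw [jump, half_pow_rpow_mul, abs_mul, abs_of_nonneg (H.nonneg _),
    Real.mul_rpow (abs_nonneg _) (H.nonneg _), mul_comm]

theorem IsWindow.jump_onemass (H : IsWindow Δ ψ) {p : ℝ} (hp : 1 < p) {u : X × X → ℝ}
    {δ : X × X → ℕ} {f : X × X} (hδ : u f ≠ 0 → (1 / 2 : ℝ) ^ δ f ≤ 2 * |u f|) (K : ℕ) :
    ∑ k ∈ range K, ((1 / 2 : ℝ) ^ k) ^ p * |jump ψ u δ k f| ≤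
      2 ^ (p - 1) / (1 - (1 / 2 : ℝ) ^ (p - 1)) * ((1 / 2 : ℝ) ^ Δ) ^ (p - 1) * |u f| ^ p := by
  refine le_trans (Finset.sum_le_sum fun k _ => ?_) (sum_big_le hp hδ Δ K)
  split_ifs with h
  · rw [jump, abs_mul, abs_mul, abs_of_pos (by positivity), abs_of_nonneg (H.nonneg _),
      rpow_eq_mul_rpow_sub_one hp (by positivity : (0 : ℝ) ≤ (1 / 2) ^ k)]
    have h1 : |u f| * ψ (k - δ f) ≤ |u f| := mul_le_of_le_one_right (abs_nonneg _) (H.le_one _)
    have h2 : (1 / 2 : ℝ) ^ k * 2 ^ k = 1 := by rw [← mul_pow]; norm_num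
    calc (1 / 2 : ℝ) ^ k * ((1 / 2 : ℝ) ^ k) ^ (p - 1) * (2 ^ k * (|u f| * ψ (k - δ f)))
        = ((1 / 2 : ℝ) ^ k * 2 ^ k) * (((1 / 2 : ℝ) ^ k) ^ (p - 1) * (|u f| * ψ (k - δ f))) := by
          ring
      _ ≤ _ := by
          rw [h2, one_mul]
          exact mul_le_mul_of_nonneg_left h1 (by positivity)
  · rw [jump, H.low _ (by omega)]; simp

variable [Fintype X]

theorem perr_jump (d : X × X → ℝ) (B : X × X → X → ℝ) (ψ : ℕ → ℝ) (u : X × X → ℝ)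
    (δ : X × X → ℕ) (hu : ∀ e, qop d B u e = u e) {J : ℕ} (hδ : ∀ f, δ f ≤ J) (k : ℕ)
    (e : X × X) :
    perr d B (jump ψ u δ k) e =
      2 ^ k * ∑ i ∈ range J, (ψ (k - (i + 1)) - ψ (k - i)) * perr d B (small u δ i) e := by
  have h1 : ∀ f, jump ψ u δ k f =
      2 ^ k * (ψ k * u f + ∑ i ∈ range J, (ψ (k - (i + 1)) - ψ (k - i)) * small u δ i f) := by
    intro f
    have h2 : ∑ i ∈ range J, (ψ (k - (i + 1)) - ψ (k - i)) * small u δ i f =
        (∑ i ∈ range (δ f), (ψ (k - (i + 1)) - ψ (k - i))) * u f := by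
      rw [Finset.sum_mul]
      symm
      refine Finset.sum_subset_zero_on_sdiff (Finset.range_mono (hδ f)) (fun i hi => ?_)
        fun i hi => ?_
      · simp only [mem_sdiff, mem_range, not_lt] at hi
        rw [small, if_neg (by omega), mul_zero]
      · rw [small, if_pos (mem_range.1 hi)]
    rw [h2, Finset.sum_range_sub (fun i => ψ (k - i)), jump]
    simp only [tsub_zero]
    ring
  have h3 : qop d B (jump ψ u δ k) e = 2 ^ k * (ψ k * qop d B u e +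
      ∑ i ∈ range J, (ψ (k - (i + 1)) - ψ (k - i)) * qop d B (small u δ i) e) := by
    simp only [qop]
    simp_rw [h1, Finset.mul_sum]
    rw [Finset.sum_comm, ← Finset.sum_add_distrib, Finset.mul_sum]
    refine Finset.sum_congr rfl fun f _ => ?_
    rw [mul_assoc, add_mul, Finset.sum_mul]
    congr 2
    · ring
    · exact Finset.sum_congr rfl fun i _ => by ring
  simp only [perr]
  rw [h3, h1, hu]
  simp_rw [mul_sub]
  rw [Finset.sum_sub_distrib]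
  ring

theorem IsWindow.jump_err (H : IsWindow Δ ψ) (hΔ : 1 ≤ Δ) {p : ℝ} (hp : 1 < p) (d : X × X → ℝ)
    (B : X × X → X → ℝ) (u : X × X → ℝ) (δ : X × X → ℕ) (hu : ∀ e, qop d B u e = u e) {J : ℕ}
    (hδ : ∀ f, δ f ≤ J) (K : ℕ) (e : X × X) :
    ∑ k ∈ range K, ((1 / 2 : ℝ) ^ k) ^ p * |perr d B (jump ψ u δ k) e| ^ p ≤
      4 * (Δ : ℝ) / (Δ : ℝ) ^ p * (∑ i ∈ range J, |perr d B (small u δ i) e|) ^ p := by
  refine le_trans (le_of_eq (Finset.sum_congr rfl fun k _ => ?_))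
    (H.sum_comm_le hΔ hp (fun i => perr d B (small u δ i) e) J K)
  rw [perr_jump d B ψ u δ hu hδ, half_pow_rpow_mul]

end

end Crest.Agent.R232
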